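import Vale.Agent.P275QV.Quot
import Vale.Agent.P275OM.Rk

/-! The commutator map is a submersion at irreducible points; `Rt`, `Rz` and their torus quotients
are submanifolds. -/

namespace P275QV

open P275BC hiding mt
open P275BC.HG Vale.Agent.P275OM Matrix Filter Topology Module Function

variable {n g d : ℕ}

section der

variable {E : Type} [NormedAddCommGroup E] [NormedSpace ℂ E] {F G : E → Mx n} {x : E}

/-- the entries are analytic -/
def AnM (F : E → Mx n) (x : E) : Prop := ∀ a c, AnalyticAt ℂ (fun y => F y a c) x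

/-- the derivative of the entries in the direction `u` -/
noncomputable def dM (F : E → Mx n) (x u : E) : Mx n :=
  Matrix.of fun a c => fderiv ℂ (fun y => F y a c) x u

theorem AnM.mul (hF : AnM F x) (hG : AnM G x) : AnM (fun y => F y * G y) x := fun a c => by
  simp only [mul_apply]
  exact Finset.analyticAt_fun_sum _ fun j _ => (hF a j).fun_mul (hG j c)

theorem AnM.det (hF : AnM F x) : AnalyticAt ℂ (fun y => (F y).det) x := by
  simp only [det_apply']
  exact Finset.analyticAt_fun_sum _ fun σ _ =>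
    analyticAt_const.fun_mul (Finset.analyticAt_fun_prod _ fun a _ => hF _ _)

theorem AnM.inv (hF : AnM F x) (h : (F x).det ≠ 0) : AnM (fun y => (F y)⁻¹) x := fun a c => by
  simp only [inv_def, Ring.inverse_eq_inv', Matrix.smul_apply, smul_eq_mul, adjugate_apply]
  refine (hF.det.fun_inv h).fun_mul (AnM.det fun i j => ?_)
  simp only [updateRow_apply]
  split_ifs
  exacts [analyticAt_const, hF i j]

theorem AnM.congr (hF : AnM F x) (h : ∀ᶠ y in 𝓝 x, F y = G y) : AnM G x := fun a c =>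
  (hF a c).congr (h.mono fun _ e => congrFun (congrFun e a) c)

theorem dM_congr (h : ∀ᶠ y in 𝓝 x, F y = G y) (u : E) : dM F x u = dM G x u := by
  ext a c
  exact DFunLike.congr_fun (EventuallyEq.fderiv_eq (h.mono fun _ e => congrFun (congrFun e a) c)) u

theorem dM_mul (hF : AnM F x) (hG : AnM G x) (u : E) :
    dM (fun y => F y * G y) x u = dM F x u * G x + F x * dM G x u := by
  ext a c
  simp only [dM, mul_apply, of_apply, Matrix.add_apply]
  rw [(HasFDerivAt.fun_sum fun j _ => (hF a j).differentiableAt.hasFDerivAt.fun_mul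
    (hG j c).differentiableAt.hasFDerivAt).fderiv, ← Finset.sum_add_distrib,
    _root_.sum_apply]
  exact Finset.sum_congr rfl fun j _ => by simp [mul_comm, add_comm]

theorem dM_const (M : Mx n) (x u : E) : dM (fun _ => M) x u = 0 := by
  ext a c
  simp [dM]

/-- analytic germs with their logarithmic derivative -/
noncomputable def Dv (x u : E) : Subgroup ((E → GL (Fin n) ℂ) × HG n) where
  carrier := {p | p.1 x = p.2.g ∧ AnM (fun y => (p.1 y : Mx n)) x ∧
    dM (fun y => (p.1 y : Mx n)) x u = p.2.a * p.2.g}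
  one_mem' := ⟨rfl, fun _ _ => analyticAt_const, (dM_const 1 x u).trans (by simp)⟩
  mul_mem' {p q} a b := ⟨by simp [a.1, b.1], a.2.1.mul b.2.1, (dM_mul a.2.1 b.2.1 u).trans (by
    simp [a.2.2, b.2.2, a.1, b.1, ad, Matrix.add_mul, Matrix.mul_assoc])⟩
  inv_mem' {p} a := by
    have h : AnM (fun y => (((p.1 y)⁻¹ : GL (Fin n) ℂ) : Mx n)) x := by
      simpa only [Matrix.coe_units_inv] using a.2.1.inv (p.1 x).det_ne_zero
    refine ⟨by simp [a.1], h, ?_⟩
    have e := dM_mul h a.2.1 u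
    simp only [Units.inv_mul, dM_const, a.2.2, a.1] at e
    have := congrArg (· * ((p.2.g⁻¹ : GL (Fin n) ℂ) : Mx n)) (eq_neg_of_add_eq_zero_left e.symm)
    simpa [ad, Matrix.mul_assoc] using this

end der

variable {x : Ix n g → ℂ} {t : Fin n → ℂ}

theorem anM_mt (x : Ix n g → ℂ) (k : Fin g) (e : Bool) : AnM (fun y => P275BC.mt y k e) x :=
  fun _ _ => an_coord _ x

theorem det_near (hx : ∀ k e, (P275BC.mt x k e).det ≠ 0) :
    ∀ᶠ y in 𝓝 x, ∀ k e, (P275BC.mt y k e).det ≠ 0 :=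
  eventually_all.2 fun k => eventually_all.2 fun e =>
    (anM_mt x k e).det.continuousAt.eventually_ne (hx k e)

/-- `mu` is analytic, with the logarithmic derivative `dmu` -/
theorem mu_der (hx : ∀ k e, (P275BC.mt x k e).det ≠ 0) (u : Ix n g → ℂ) :
    AnM mu x ∧ dM mu x u = dmu x u * mu x := by
  let Y : Fin g → Bool → ((Ix n g → ℂ) → GL (Fin n) ℂ) × HG n :=
    fun k e => (fun y => ux y k e, gn x u 0 k e)
  have h : cw Y ∈ Dv x u := cw_mem fun k e => by
    have e1 : ∀ᶠ y in 𝓝 x, P275BC.mt y k e = (ux y k e : Mx n) :=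
      (det_near hx).mono fun y hy => (un_val (hy k e)).symm
    refine ⟨rfl, (anM_mt x k e).congr e1, (dM_congr e1 u).symm.trans ?_⟩
    change _ = P275BC.mt u k e * _ * ((un (P275BC.mt x k e) : GL (Fin n) ℂ) : Mx n)
    rw [un_val (hx k e), nonsing_inv_mul_cancel_right _ _ (isUnit_iff_ne_zero.2 (hx k e))]
    ext a c
    exact DFunLike.congr_fun (hasFDerivAt_apply (𝕜 := ℂ) (k, e, a, c) x).fderiv u
  have e1 : ∀ᶠ y in 𝓝 x, (((cw Y).1 y : GL (Fin n) ℂ) : Mx n) = mu y :=
    (det_near hx).mono fun y hy => by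
      rw [mu_eq hy]
      exact congrArg Units.val (map_cw ((Pi.evalMonoidHom (fun _ => GL (Fin n) ℂ) y).comp
        (MonoidHom.fst _ (HG n))) Y)
  have e2 : (cw Y).2 = cw (gn x u 0) := map_cw (MonoidHom.snd _ (HG n)) Y
  refine ⟨h.2.1.congr e1, (dM_congr e1 u).symm.trans (h.2.2.trans ?_)⟩
  rw [← h.1, e1.self_of_nhds, e2]
  rfl

theorem det_mu (hx : ∀ k e, (P275BC.mt x k e).det ≠ 0) : (mu x).det = 1 := by
  have h := map_cw (GeneralLinearGroup.det (n := Fin n) (R := ℂ)) (ux x)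
  rw [cw_comm] at h
  rw [mu_eq hx]
  exact congrArg Units.val h

theorem mu_scale (hx : ∀ k e, (P275BC.mt x k e).det ≠ 0) {c : Fin g × Bool → ℂ}
    (hc : ∀ p, c p ≠ 0) : mu (fun i => c (i.1, i.2.1) * x i) = mu x := by
  have h : ∀ k e, P275BC.mt (fun i => c (i.1, i.2.1) * x i) k e = c (k, e) • P275BC.mt x k e :=
    fun _ _ => rfl
  have h' : ∀ k e, (c (k, e) • P275BC.mt x k e)⁻¹ = (c (k, e))⁻¹ • (P275BC.mt x k e)⁻¹ :=
    fun k e => inv_eq_right_inv (by
      rw [Matrix.smul_mul, Matrix.mul_smul, smul_smul, mul_inv_cancel₀ (hc _), one_smul,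
        mul_nonsing_inv _ (isUnit_iff_ne_zero.2 (hx k e))])
  simp only [mu, h, h', Matrix.smul_mul, Matrix.mul_smul, smul_smul]
  congr 2
  funext k
  rw [show _ * _ = (1 : ℂ) by field_simp [hc], one_smul]

theorem surj_of_dual {E J : Type} [NormedAddCommGroup E] [NormedSpace ℂ E] [Fintype J]
    {A : E →L[ℂ] J → ℂ} (h : ∀ l : J → ℂ, (∀ u, ∑ j, A u j * l j = 0) → l = 0) : Surjective A := by
  classical
  by_contra e
  obtain ⟨f, f1, f2⟩ := (LinearMap.range (A : E →ₗ[ℂ] J → ℂ)).exists_le_ker_of_lt_top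
    (lt_top_iff_ne_top.2 fun k => e (LinearMap.range_eq_top.1 k))
  have := h (fun j => f fun i => if j = i then 1 else 0) fun u =>
    (LinearMap.pi_apply_eq_sum_univ f (A u)).symm.trans (f2 ⟨u, rfl⟩)
  refine f1 (LinearMap.ext fun w => ?_)
  rw [LinearMap.pi_apply_eq_sum_univ]
  exact Finset.sum_eq_zero fun j _ => by rw [congrFun this j]; simp

/-- prescribed entries of `mu` on `SL n` tuples -/
theorem mu_eqn (hn : 0 < n) (P : Fin n × Fin n → Prop) [DecidablePred P] (v : Mx n)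
    (hx : ∀ k e, (P275BC.mt x k e).det = 1) (hi : x ∈ Irr n g)
    (hP : ∀ (L : Mx n) (c : ℂ), (∀ a b, ¬ P (a, b) → L a b = 0) → mu x * L = c • 1 → L = 0)
    (hd : d + 2 * g + Fintype.card {p // P p} = 2 * g * n ^ 2)
    (hv : ∀ a b, P (a, b) → mu x b a = v b a) :
    Eqn d {y | (∀ k e, (P275BC.mt y k e).det = 1) ∧ ∀ a b, P (a, b) → mu y b a = v b a} x := by
  have h0 : ∀ k e, (P275BC.mt x k e).det ≠ 0 := fun k e => hx k e ▸ one_ne_zero
  have an := (mu_der h0 0).1
  have e1 : Eqn (d + 2 * g) {y | ∀ a b, P (a, b) → mu y b a = v b a} x := by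
    refine Eqn.of_target (h := fun y (p : {p // P p}) => mu y p.1.2 p.1.1 - v p.1.2 p.1.1)
      (by simp [hd]; ring) (AnalyticAt.pi fun p => (an _ _).fun_sub analyticAt_const)
      (surj_of_dual fun l hl => ?_) (Eventually.of_forall fun y => by
        simp [funext_iff, sub_eq_zero])
    let L : Mx n := Matrix.of fun a b => if h : P (a, b) then l ⟨_, h⟩ else 0
    have h1 : ∀ u, trace (dmu x u * (mu x * L)) = 0 := fun u => by
      rw [← Matrix.mul_assoc, ← (mu_der h0 u).2, ← hl u, (hasFDerivAt_pi.2 fun p : {p // P p} =>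
        (an p.1.2 p.1.1).differentiableAt.hasFDerivAt.sub_const _).fderiv, trace_mul_comm]
      simp only [trace, diag, mul_apply, ← Finset.sum_product', Finset.univ_product_univ]
      rw [← Fintype.sum_subtype_add_sum_subtype P, Finset.sum_eq_zero (s := Finset.univ)
        (f := fun p : {p // ¬ P p} => _) fun p _ => by simp [L, p.2], add_zero]
      exact Finset.sum_congr rfl fun p _ => by simp [L, p.2, dM, mul_comm]
    obtain ⟨c, hc⟩ := schur hn hi (mu x * L) (comm_of_Ce h0 fun k e =>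
      sub_eq_zero.1 (eq_zero_of_tr fun ζ => by
        obtain ⟨N, rfl⟩ := exists_sg h0 k e ζ
        rw [← h1 (sg k e N), (om_sg x 0 k e N rfl).1, Matrix.mul_sub, Matrix.sub_mul, trace_sub,
          trace_sub, tr_ad_ad]))
    have := hP L c (fun a b h => dif_neg h) hc
    exact funext fun p => (dif_pos p.2).symm.trans (congrFun (congrFun this p.1.1) p.1.2)
  have an2 : AnalyticAt ℂ (fun y (p : Fin g × Bool) => (P275BC.mt y p.1 p.2).det - 1) x :=
    AnalyticAt.pi fun p => (anM_mt x _ _).det.fun_sub analyticAt_const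
  refine (e1.inter (by simp; ring) an2 fun w => ?_).congr (Eventually.of_forall fun y => by
    simp [funext_iff, sub_eq_zero, and_comm])
  have hw : ∀ p, HasDerivAt (fun s : ℂ => 1 + s * (w p / n)) (w p / n) 0 := fun p => by
    simpa using ((hasDerivAt_id (0 : ℂ)).mul_const (w p / n)).const_add 1
  have d1 : DifferentiableAt ℂ (fun (s : ℂ) (i : Ix n g) => (1 + s * (w (i.1, i.2.1) / n)) * x i) 0 :=
    differentiableAt_pi.2 fun i => (hw _).differentiableAt.mul_const _
  have z : (fun i : Ix n g => (1 + 0 * (w (i.1, i.2.1) / n)) * x i) = x := by simp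
  refine ⟨_, z, ?_, d1, (HasFDerivAt.comp_hasDerivAt_of_eq 0 an2.differentiableAt.hasFDerivAt
    d1.hasDerivAt z.symm).unique (hasDerivAt_pi.2 fun p => ?_)⟩
  · filter_upwards [eventually_all.2 fun p =>
      (hw p).continuousAt.eventually_ne (y := 0) (by simp)] with s hs a b h
    exact (congrFun (congrFun (mu_scale h0 hs) b) a).trans (hv a b h)
  · have : ∀ s : ℂ, (P275BC.mt (fun i : Ix n g => (1 + s * (w (i.1, i.2.1) / n)) * x i) p.1 p.2).det =
        (1 + s * (w p / n)) ^ n := fun s => by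
      rw [show P275BC.mt _ p.1 p.2 = (1 + s * (w p / n)) • P275BC.mt x p.1 p.2 from rfl, det_smul, hx]
      simp
    simp only [Function.comp_apply, this]
    refine (((hw p).fun_pow n).sub_const 1).congr_deriv ?_
    have : (n : ℂ) ≠ 0 := Nat.cast_ne_zero.2 hn.ne'
    simp [mul_div_cancel₀, this]

theorem card_erase (P : Fin (n + 1) × Fin (n + 1) → Prop) [DecidablePred P] (h : P 0) :
    Fintype.card {p // P p ∧ p ≠ 0} + 1 = Fintype.card {p // P p} := by
  rw [Fintype.card_subtype, Fintype.card_subtype, ← Finset.card_erase_add_one (a := 0)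
    (s := Finset.univ.filter P) (by simpa)]
  exact congrArg (fun s : Finset _ => s.card + 1) (by ext p; simp [and_comm])

variable {r : ℕ} {x : Ix (r + 1) g → ℂ} {t : Fin (r + 1) → ℂ}

theorem mem_Rt (ht : ∏ a, t a = 1) (h1 : ∀ k e, (P275BC.mt x k e).det = 1)
    (h2 : ∀ a b, a ≤ b → (a, b) ≠ 0 → mu x b a = diagonal t b a) : x ∈ Rt g t := by
  have h3 : ∀ a c, c < a → mu x a c = 0 := fun a c h =>
    (h2 c a h.le fun e => h.ne' ((Prod.mk_eq_zero.1 e).2.trans (Prod.mk_eq_zero.1 e).1.symm)).trans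
      (diagonal_apply_ne _ h.ne')
  have h4 : ∀ a : Fin r, mu x a.succ a.succ = t a.succ := fun a =>
    (h2 _ _ le_rfl (by simp)).trans (diagonal_apply_eq _ _)
  refine ⟨h1, h3, Fin.cases ?_ h4⟩
  have h5 := det_mu fun k e => h1 k e ▸ one_ne_zero
  rw [det_of_isUpperTriangular fun a c h => h3 a c h, Fin.prod_univ_succ] at h5
  rw [Fin.prod_univ_succ] at ht
  simp only [h4] at h5
  exact mul_right_cancel₀ (right_ne_zero_of_mul_eq_one ht) (h5.trans ht.symm)

/-- `Rt` is smooth -/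
theorem rt_eqn (ht : Gnc t) (hx : x ∈ Rt g t)
    (hd : 2 * d + 4 * g + (r + 1) * (r + 2) = 4 * g * (r + 1) ^ 2 + 2) : Eqn d (Rt g t) x := by
  have key : ∀ y ∈ Rt g t, ∀ a b, a ≤ b → mu y b a = diagonal t b a := fun y hy a b h => by
    rcases h.eq_or_lt with rfl | h
    · rw [hy.2.2, diagonal_apply_eq]
    · rw [hy.2.1 _ _ h, diagonal_apply_ne _ h.ne']
  refine (mu_eqn (n := r + 1) r.succ_pos (fun p => p.1 ≤ p.2 ∧ p ≠ 0) (diagonal t) hx.1 (irr ht hx)
    (fun L c h1 h2 => ?_) ?_ fun a b h => key x hx a b h.1).congr (Eventually.of_forall fun y =>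
      ⟨fun h => mem_Rt ht.1 h.1 fun a b k l => h.2 a b ⟨k, l⟩,
        fun h => ⟨h.1, fun a b k => key y h a b k.1⟩⟩)
  · have := congrFun (congrFun h2 0) 0
    rw [mul_apply, Finset.sum_eq_zero fun j _ => by
      rw [h1 j 0 fun h => h.2 (Prod.ext (Fin.le_zero_iff.1 h.1) rfl), mul_zero]] at this
    rw [show c = 0 by simpa using this.symm, zero_smul] at h2
    rw [← nonsing_inv_mul_cancel_left (mu x) L (by rw [det_mu (det_ne hx)]; simp), h2,
      Matrix.mul_zero]
  · have h1 := card_erase (fun p : Fin (r + 1) × Fin (r + 1) => p.1 ≤ p.2) le_rfl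
    have h2 := card_Tr (r + 1)
    have : 4 * g * (r + 1) ^ 2 = 2 * (2 * g * (r + 1) ^ 2) := by ring
    change 2 * Fintype.card {p : Fin (r + 1) × Fin (r + 1) // p.1 ≤ p.2} = (r + 1) * (r + 2) at h2
    omega

theorem gnc_root {ζ : ℂ} (h : IsPrimitiveRoot ζ (r + 1)) : Gnc fun _ : Fin (r + 1) => ζ :=
  ⟨by simpa using h.pow_eq_one, fun s h1 h2 => by
    rw [Finset.prod_const]
    exact h.pow_ne_one_of_pos_of_lt h1.card_pos.ne' (by simpa using Finset.card_lt_card (Finset.ssubset_univ_iff.2 h2))⟩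

theorem rz_sub {ζ : ℂ} : Rz n g ζ ⊆ Rt g fun _ => ζ := fun _ h =>
  ⟨h.1, fun a c k => by simp [h.2, one_apply_ne k.ne'], fun a => by simp [h.2]⟩

/-- `Rz` is smooth -/
theorem rz_eqn {ζ : ℂ} (h : IsPrimitiveRoot ζ (r + 1)) (hx : x ∈ Rz (r + 1) g ζ)
    (hd : d + 2 * g + (r + 1) ^ 2 = 2 * g * (r + 1) ^ 2 + 1) : Eqn d (Rz (r + 1) g ζ) x := by
  refine (mu_eqn (n := r + 1) r.succ_pos (fun p => p ≠ 0) (ζ • 1) hx.1 (irr (gnc_root h) (rz_sub hx))
    (fun L c h1 h2 => ?_) ?_ fun a b _ => by rw [hx.2]).congr (Eventually.of_forall fun y =>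
      ⟨fun k => ⟨k.1, ?_⟩, fun k => ⟨k.1, fun a b _ => by rw [k.2]⟩⟩)
  · rw [hx.2, Matrix.smul_mul, Matrix.one_mul] at h2
    have := congrFun (congrFun h2 0) 0
    rw [Matrix.smul_apply, h1 0 0 fun k => k rfl] at this
    rw [show c = 0 by simpa using this.symm, zero_smul] at h2
    exact (smul_eq_zero.1 h2).resolve_left (h.ne_zero r.succ_ne_zero)
  · have : 0 < (r + 1) ^ 2 := by positivity
    rw [Fintype.card_subtype_compl, Fintype.card_subtype_eq, Fintype.card_prod, Fintype.card_fin,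
      ← sq]
    omega
  · ext b a
    by_cases e : (a, b) = 0
    · obtain ⟨rfl, rfl⟩ := Prod.mk_eq_zero.1 e
      simpa using (mem_Rt (gnc_root h).1 k.1 fun a b _ l => (k.2 a b l).trans
        (by rw [smul_one_eq_diagonal])).2.2 0
    · exact k.2 a b e

theorem irr_con : Irr n g ⊆ Con n g := fun x hx s ⟨a, ha⟩ hs => by
  by_contra h
  push Not at h
  obtain ⟨c, hc⟩ : ∃ c, c ∉ s := by simpa [Finset.eq_univ_iff_forall] using hs
  rcases hx (Submodule.pi (s : Set (Fin n)) fun _ => ⊥) fun k b v hv i hi =>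
    show ∑ j, P275BC.mt x k b i j * v j = 0 from Finset.sum_eq_zero fun j _ => by
      by_cases e : j ∈ s
      · exact mul_eq_zero_of_right _ (hv j e)
      · exact mul_eq_zero_of_left (h k b i j hi e) _ with e | e
  · have : Pi.single c (1 : ℂ) ∈ (⊥ : Submodule ℂ (Fin n → ℂ)) :=
      e ▸ fun i hi => Pi.single_eq_of_ne (fun k : i = c => hc (k ▸ hi)) _
    simp at this
  · exact one_ne_zero (Submodule.eq_top_iff'.1 e 1 a ha)

theorem rt_con (ht : Gnc t) : Rt g t ⊆ Con (r + 1) g := fun _ hx => irr_con (irr ht hx)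

/-- the diagonal matrix of `τ` -/
noncomputable def dT (τ : Fin r → ℂˣ) : GL (Fin (r + 1)) ℂ :=
  ⟨diagonal fun a => ht τ a, diagonal fun a => (ht τ a)⁻¹, by simp, by simp⟩

theorem ad_dT (τ : Fin r → ℂˣ) (M : Mx (r + 1)) (a c : Fin (r + 1)) :
    ad (dT τ) M a c = ht τ a / ht τ c * M a c := by
  change (diagonal _ * M * diagonal _ : Mx (r + 1)) a c = _
  rw [mul_diagonal, diagonal_mul]
  ring

theorem mt_act (τ : Fin r → ℂˣ) (x : Ix (r + 1) g → ℂ) (k : Fin g) (e : Bool) :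
    P275BC.mt (actW (wA r g) τ x) k e = ad (dT τ) (P275BC.mt x k e) := by
  ext a c
  rw [ad_dT]
  exact congrArg (· * _) (chr_wA τ _)

theorem det_ad (h : GL (Fin n) ℂ) (M : Mx n) : (ad h M).det = M.det := det_units_conj h M

theorem ad_inv (h : GL (Fin n) ℂ) (M : Mx n) : (ad h M)⁻¹ = ad h M⁻¹ := by
  simp only [ad, Matrix.mul_inv_rev, Matrix.coe_units_inv, Matrix.mul_assoc,
    nonsing_inv_nonsing_inv _ (isUnit_iff_ne_zero.2 h.det_ne_zero)]

theorem mu_act (τ : Fin r → ℂˣ) (x : Ix (r + 1) g → ℂ) :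
    mu (actW (wA r g) τ x) = ad (dT τ) (mu x) := by
  let φ : Mx (r + 1) →* Mx (r + 1) :=
    ⟨⟨ad (dT τ), by simp [ad]⟩, fun M N => (ad_mul_ad _ M N).symm⟩
  change _ = φ _
  simp only [mu, mt_act, ad_inv, ad_mul_ad, map_list_prod, List.map_ofFn]
  rfl

theorem stb_Rt (t : Fin (r + 1) → ℂ) : Stb (wA r g) (Rt g t) := fun τ x hx =>
  ⟨fun k e => by rw [mt_act, det_ad, hx.1], fun a c h => by rw [mu_act, ad_dT, hx.2.1 a c h, mul_zero],
    fun a => by rw [mu_act, ad_dT, hx.2.2, div_self (Units.ne_zero _), one_mul]⟩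

theorem stb_Rz (ζ : ℂ) : Stb (wA r g) (Rz (r + 1) g ζ) := fun τ x hx =>
  ⟨fun k e => by rw [mt_act, det_ad, hx.1], by rw [mu_act, hx.2, ad_smul]; simp [ad]⟩

variable {κ : Type} [Fintype κ] {q : κ → MvPolynomial (Ix (r + 1) g) ℂ}

/-- `X1 = Rt / T` is smooth -/
theorem x1_par (ht : Gnc t) (hq : QP (Orb (wA r g)) (Rt g t) q)
    (hd : 2 * d + 4 * g + r * (r + 5) = 4 * g * (r + 1) ^ 2) :
    ∀ z ∈ qm q '' Rt g t, Par d (qm q '' Rt g t) z := by
  rintro _ ⟨x, hx, rfl⟩
  exact Par.quot (stb_Rt t) hq (fr_con (rt_con ht hx) _)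
    ((rt_eqn ht hx (by rw [Fintype.card_fin, ← hd]; ring)).par hx)

/-- `F1 = Rz / T` is smooth -/
theorem f1_par {ζ : ℂ} (h : IsPrimitiveRoot ζ (r + 1)) (hq : QP (Orb (wA r g)) (Rz (r + 1) g ζ) q)
    (hd : d + 2 * g + r * (r + 3) = 2 * g * (r + 1) ^ 2) :
    ∀ z ∈ qm q '' Rz (r + 1) g ζ, Par d (qm q '' Rz (r + 1) g ζ) z := by
  rintro _ ⟨x, hx, rfl⟩
  exact Par.quot (stb_Rz ζ) hq (fr_con (rt_con (gnc_root h) (rz_sub hx)) _)
    ((rz_eqn h hx (by rw [Fintype.card_fin, ← hd]; ring)).par hx)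

end P275QV
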