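import Vale.Agent.P275BC.Props

/-! Closed walks give a quotient package for the adjoint torus. -/

namespace P275QV

open MvPolynomial P275BC

variable {r g : ℕ}

/-- the diagonal matrix with first entry one -/
noncomputable def ht (τ : Fin r → ℂˣ) : Fin (r + 1) → ℂˣ := Fin.cons 1 τ

theorem prod_single (τ : Fin r → ℂˣ) (a : Fin (r + 1)) :
    ∏ b : Fin r, τ b ^ (Pi.single a 1 : Fin (r + 1) → ℤ) b.succ = ht τ a := by
  refine Fin.cases ?_ (fun a => ?_) a
  · simp [ht]
  · rw [Finset.prod_eq_single a (fun b _ hb => by simp [hb]) (by simp)]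
    simp [ht]

theorem chr_wA (τ : Fin r → ℂˣ) (i : Ix (r + 1) g) :
    chr (wA r g i) τ = (ht τ i.2.2.1 : ℂ) / ht τ i.2.2.2 := by
  simp only [chr, wA, wT, Pi.sub_apply, zpow_sub, Finset.prod_mul_distrib, Finset.prod_inv_distrib,
    prod_single, Units.val_mul, Units.val_inv_eq_inv_val, div_eq_mul_inv]

/-- semi-invariant polynomials of the weight of a walk from `i` to `j` -/
def Sw (m : MvPolynomial (Ix (r + 1) g) ℂ) (i j : Fin (r + 1)) : Prop :=
  ∀ τ y, eval (actW (wA r g) τ y) m = (ht τ i : ℂ) / ht τ j * eval y m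

theorem Sw.mul {m m' : MvPolynomial (Ix (r + 1) g) ℂ} {i j l : Fin (r + 1)} (h : Sw m i j)
    (h' : Sw m' j l) : Sw (m * m') i l := fun τ y => by
  have := (ht τ j).ne_zero
  rw [map_mul, map_mul, h, h']
  field_simp

theorem sw_X (e : Ix (r + 1) g) : Sw (X e) e.2.2.1 e.2.2.2 := fun τ y => by
  simp [actW, chr_wA]

theorem sw_one (i : Fin (r + 1)) : Sw (1 : MvPolynomial (Ix (r + 1) g) ℂ) i i := fun τ y => by
  simp

theorem Sw.inv {m : MvPolynomial (Ix (r + 1) g) ℂ} {i : Fin (r + 1)} (h : Sw m i i) (τ y) :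
    eval (actW (wA r g) τ y) m = eval y m := by rw [h]; simp

/-- there is a walk from `i` to `j` along the edges in `P` -/
def Rch (P : Finset (Ix (r + 1) g)) (i j : Fin (r + 1)) : Prop :=
  ∃ m, Sw m i j ∧ ∀ y : Ix (r + 1) g → ℂ, (∀ e ∈ P, y e ≠ 0) → eval y m ≠ 0

theorem all_of_con {x : Ix (r + 1) g → ℂ} (hx : x ∈ Con (r + 1) g) {p : Fin (r + 1) → Prop}
    {i : Fin (r + 1)} (hi : p i) (hp : ∀ e : Ix (r + 1) g, x e ≠ 0 → p e.2.2.1 → p e.2.2.2)
    (j : Fin (r + 1)) : p j := by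
  classical
  by_contra hj
  obtain ⟨k, b, a, c, h1, h2, h3⟩ := hx (Finset.univ.filter p) ⟨i, by simpa using hi⟩
    fun e => hj (by simpa using Finset.eq_univ_iff_forall.1 e j)
  exact h2 (by simpa using hp _ h3 (by simpa using h1))

theorem rch {x : Ix (r + 1) g → ℂ} (hx : x ∈ Con (r + 1) g) {P : Finset (Ix (r + 1) g)}
    (hP : ∀ e, x e ≠ 0 → e ∈ P) (i j : Fin (r + 1)) : Rch P i j :=
  all_of_con hx (p := Rch P i) ⟨1, sw_one i, by simp⟩ (fun e he ⟨m, h1, h2⟩ =>
    ⟨m * X e, h1.mul (sw_X e), fun y hy => by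
      simpa using ⟨h2 y hy, hy e (hP e he)⟩⟩) j

theorem QP.reindex {ι κ κ' : Type} {s : (ι → ℂ) → (ι → ℂ) → Prop} {R : Set (ι → ℂ)}
    {q : κ → MvPolynomial ι ℂ} (h : QP s R q) (e : κ ≃ κ') : QP s R (q ∘ e.symm) where
  inv x hx y hy := funext fun k => congrFun (h.inv x hx y hy) (e.symm k)
  sec x hx := by
    obtain ⟨P, Q, h1, h2⟩ := h.sec x hx
    have key : ∀ y (F : MvPolynomial κ ℂ),
        eval (qm (q ∘ e.symm) y) (rename e F) = eval (qm q y) F := fun y F => by
      rw [eval_rename]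
      congr 2
      funext k
      simp [qm]
    exact ⟨fun i => rename e (P i), rename e Q, by rwa [key], fun y hy => by
      simpa only [key] using h2 y hy⟩

theorem free (τ : Fin r → ℂˣ) (x : Ix (r + 1) g → ℂ) (hx : x ∈ Con (r + 1) g)
    (h : actW (wA r g) τ x = x) : τ = 1 := by
  have := all_of_con hx (p := fun a => ht τ a = 1) (i := 0) rfl fun e he h1 => by
    have h2 := congrFun h e
    rw [actW, chr_wA, h1, mul_eq_right₀ he, Units.val_one, one_div, inv_eq_one] at h2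
    exact Units.val_eq_one.1 h2
  exact funext fun a => this a.succ

theorem qv : QV := by
  classical
  refine fun r g => ⟨free, ?_⟩
  have h0 : ∀ (P : Finset (Ix (r + 1) g)) i j, ∃ m, Sw m i j ∧ (Rch P i j →
      ∀ y : Ix (r + 1) g → ℂ, (∀ e ∈ P, y e ≠ 0) → eval y m ≠ 0) := fun P i j => by
    by_cases h : Rch P i j
    · obtain ⟨m, h1, h2⟩ := h
      exact ⟨m, h1, fun _ => h2⟩
    · exact ⟨0, fun τ y => by simp, fun h' => absurd h' h⟩
  choose m hm1 hm2 using h0
  let q : Finset (Ix (r + 1) g) × (Ix (r + 1) g ⊕ Fin (r + 1)) → MvPolynomial (Ix (r + 1) g) ℂ :=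
    fun k => Sum.elim (fun e => m k.1 0 e.2.2.1 * X e * m k.1 e.2.2.2 0)
      (fun j => m k.1 0 j * m k.1 j 0) k.2
  have hq : QP (Orb (wA r g)) (Con (r + 1) g) q := by
    refine ⟨?_, fun x hx => ?_⟩
    · rintro x - _ ⟨τ, rfl⟩
      funext ⟨P, k⟩
      rcases k with e | j
      · exact (((hm1 P _ _).mul (sw_X e)).mul (hm1 P _ _)).inv τ x
      · exact ((hm1 P _ _).mul (hm1 P _ _)).inv τ x
    · set P := Finset.univ.filter fun e => x e ≠ 0 with hP
      have hx' : ∀ i j, eval x (m P i j) ≠ 0 := fun i j =>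
        hm2 P i j (rch hx (fun e he => by simpa [hP] using he) i j) x fun e he => by
          simpa [hP] using he
      refine ⟨fun e => X (P, Sum.inl e) * ∏ j ∈ Finset.univ.erase e.2.2.2, X (P, Sum.inr j),
        ∏ j, X (P, Sum.inr j), ?_, fun y _ hy => ?_⟩
      · simp [qm, q, Finset.prod_eq_zero_iff, hx']
      · have h1 : ∀ j, eval y (m P 0 j) ≠ 0 ∧ eval y (m P j 0) ≠ 0 := by
          simpa [qm, q, Finset.prod_eq_zero_iff] using hy
        have h2 : ∀ j, (ht (fun a => Units.mk0 (eval y (m P 0 a.succ) / eval y (m P 0 0))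
            (div_ne_zero (h1 _).1 (h1 _).1)) j : ℂ) = eval y (m P 0 j) / eval y (m P 0 0) :=
          fun j => Fin.cases (by simp [ht, (h1 0).1]) (fun a => by simp [ht]) j
        refine ⟨fun a => Units.mk0 (eval y (m P 0 a.succ) / eval y (m P 0 0))
          (div_ne_zero (h1 _).1 (h1 _).1), funext fun e => ?_⟩
        have h3 : ∏ j ∈ Finset.univ.erase e.2.2.2, qm q y (P, Sum.inr j) ≠ 0 :=
          Finset.prod_ne_zero_iff.2 fun j _ => by simpa [qm, q] using h1 j
        rw [actW, chr_wA, h2, h2, ← Finset.mul_prod_erase _ _ (Finset.mem_univ e.2.2.2)]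
        simp only [map_mul, map_prod, eval_X]
        rw [mul_div_mul_right _ _ h3]
        have a1 := (h1 0).1
        have a2 := (h1 e.2.2.2).1
        have a3 := (h1 e.2.2.2).2
        simp only [qm, q, Sum.elim_inl, Sum.elim_inr, map_mul, eval_X]
        field_simp
  exact ⟨_, _, QP.reindex hq (Fintype.equivFin _)⟩

end P275QV
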