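import Vale.Agent.P275QV.Par
import Vale.Agent.P275QV.Qv

/-! Regular maps are locally analytic; cells and torus quotients are submanifolds. -/

namespace P275QV

open P275BC MvPolynomial Filter Topology Module Function

set_option linter.unusedSectionVars false

variable {ι κ ρ : Type} [Fintype ι] [Fintype κ] [Fintype ρ] {S R : Set (ι → ℂ)} {x : ι → ℂ}
  {d : ℕ}

theorem an_coord (i : ι) (x : ι → ℂ) : AnalyticAt ℂ (fun y : ι → ℂ => y i) x :=
  (ContinuousLinearMap.proj (R := ℂ) (φ := fun _ : ι => ℂ) i).analyticAt x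

theorem an_eval (P : MvPolynomial ι ℂ) (x : ι → ℂ) : AnalyticAt ℂ (fun y => eval y P) x := by
  induction P using MvPolynomial.induction_on with
  | C a => simpa using analyticAt_const
  | add p q hp hq => simpa only [map_add] using hp.fun_add hq
  | mul_X p k hp => simpa only [map_mul, eval_X] using hp.fun_mul (an_coord k x)

theorem an_qm (q : κ → MvPolynomial ι ℂ) (x : ι → ℂ) : AnalyticAt ℂ (qm q) x :=
  AnalyticAt.pi fun k => an_eval (q k) x

/-- a regular map extends analytically near every point -/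
theorem reg_ext {f : (ι → ℂ) → κ → ℂ} (hf : ∀ k, Reg S fun y => f y k) (hx : x ∈ S) :
    ∃ F : (ι → ℂ) → κ → ℂ, AnalyticAt ℂ F x ∧ ∀ᶠ y in 𝓝 x, y ∈ S → F y = f y := by
  choose P Q h1 h2 using fun k => hf k x hx
  refine ⟨fun y k => eval y (P k) / eval y (Q k),
    AnalyticAt.pi fun k => (an_eval _ x).fun_div (an_eval _ x) (h1 k), ?_⟩
  filter_upwards [eventually_all.2 fun k => (an_eval (Q k) x).continuousAt.eventually_ne (h1 k)]
    with y a b
  exact funext fun k => (h2 k y b (a k)).symm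

theorem reg_an {f : (ι → ℂ) → κ → ℂ} (hf : ∀ k, Reg S fun y => f y k) (hx : S ∈ 𝓝 x) :
    AnalyticAt ℂ f x :=
  let ⟨_, h1, h2⟩ := reg_ext hf (mem_of_mem_nhds hx)
  h1.congr (by filter_upwards [h2, hx] with y a b using a b)

/-- biregular bijections preserve smoothness -/
theorem Par.reg (h : Par d S x) {T : Set (κ → ℂ)} {f : (ι → ℂ) → κ → ℂ} {g : (κ → ℂ) → ι → ℂ}
    (hf : ∀ k, Reg S fun y => f y k) (hg : ∀ i, Reg T fun w => g w i) (m1 : ∀ y ∈ S, f y ∈ T)
    (m2 : ∀ w ∈ T, g w ∈ S) (li : ∀ y ∈ S, g (f y) = y) (ri : ∀ w ∈ T, f (g w) = w) :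
    Par d T (f x) := by
  obtain ⟨F, f1, f2⟩ := reg_ext hf h.mem
  obtain ⟨G, g1, g2⟩ := reg_ext hg (m1 x h.mem)
  have e : F x = f x := f2.self_of_nhds h.mem
  have e' : G (F x) = x := by rw [e, g2.self_of_nhds (m1 x h.mem), li x h.mem]
  rw [← e] at g1 g2 ⊢
  refine h.map f1 g1 ?_ ?_
  · filter_upwards [f2, f1.continuousAt.eventually g2] with y a b c
    rw [a c] at b ⊢
    exact ⟨m1 y c, (b (m1 y c)).trans (li y c)⟩
  · filter_upwards [g2, g1.continuousAt.eventually (e'.symm ▸ f2)] with z a b c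
    rw [a c] at b ⊢
    exact ⟨m2 z c, (b (m2 z c)).trans (ri z c)⟩

theorem tor_nhds {α β : Type} [Fintype α] [Fintype β] {w : α ⊕ β → ℂ} (h : w ∈ Tor α β) :
    Tor α β ∈ 𝓝 w := by
  have : ∀ᶠ v in 𝓝 w, ∀ i, v (Sum.inl i) ≠ 0 :=
    eventually_all.2 fun i => (continuous_apply _).continuousAt.eventually_ne (h i)
  exact this

/-- a cell is a submanifold -/
theorem cell_par {α β : Type} [Fintype α] [Fintype β] (c : Cell S α β) (hx : x ∈ S) :
    Par (Fintype.card α + Fintype.card β) S x := by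
  have := (par_of_mem_nhds (tor_nhds (c.mψ x hx))).reg c.rφ c.rψ c.mφ c.mψ c.ri c.li
  rw [c.li x hx] at this
  simpa using this

/-- the torus action as a function of complex parameters -/
noncomputable def act (W : ι → ρ → ℤ) (u : ρ → ℂ) (y : ι → ℂ) : ι → ℂ :=
  fun i => (∏ a, u a ^ W i a) * y i

theorem act_eq (W : ι → ρ → ℤ) (τ : ρ → ℂˣ) (y : ι → ℂ) :
    act W (fun a => τ a) y = actW W τ y := by
  ext i
  simp [act, actW, chr]

theorem actW_mul (W : ι → ρ → ℤ) (τ σ : ρ → ℂˣ) (y : ι → ℂ) :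
    actW W τ (actW W σ y) = actW W (τ * σ) y := by
  ext i
  simp [actW, chr, mul_zpow, Finset.prod_mul_distrib, mul_assoc]

theorem actW_one (W : ι → ρ → ℤ) (y : ι → ℂ) : actW W 1 y = y := by
  ext i
  simp [actW, chr]

theorem an_act {E : Type} [NormedAddCommGroup E] [NormedSpace ℂ E] (W : ι → ρ → ℤ)
    {u : E → ρ → ℂ} {y : E → ι → ℂ} {p : E} (hu : AnalyticAt ℂ u p) (hy : AnalyticAt ℂ y p)
    (h0 : ∀ a, u p a ≠ 0) : AnalyticAt ℂ (fun v => act W (u v) (y v)) p :=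
  AnalyticAt.pi fun i => (Finset.analyticAt_fun_prod _ fun a _ =>
    ((an_coord a _).comp hu).fun_zpow (h0 a)).fun_mul ((an_coord i _).comp hy)

/-- at `x` there are semi-invariant polynomials of the weights of the coordinate characters -/
def Fr (W : ι → ρ → ℤ) (R : Set (ι → ℂ)) (x : ι → ℂ) : Prop :=
  ∀ a, ∃ m : MvPolynomial ι ℂ, eval x m ≠ 0 ∧
    ∀ τ, ∀ y ∈ R, eval (actW W τ y) m = τ a * eval y m

/-- an analytic local trivialisation of the quotient map at `x` -/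
structure Trv (W : ι → ρ → ℤ) (R : Set (ι → ℂ)) (q : κ → MvPolynomial ι ℂ) (x : ι → ℂ)
    (s : (κ → ℂ) → ι → ℂ) (u : (ι → ℂ) → ρ → ℂ) : Prop where
  ans : AnalyticAt ℂ s (qm q x)
  anu : AnalyticAt ℂ u x
  pt : s (qm q x) = x
  one : u x = 1
  sec : ∀ᶠ z in 𝓝 (qm q x), z ∈ qm q '' R → s z ∈ R ∧ qm q (s z) = z ∧
    ∀ τ, u (actW W τ (s z)) = fun a => (τ a : ℂ)
  orb : ∀ᶠ y in 𝓝 x, y ∈ R → ∃ τ : ρ → ℂˣ, y = actW W τ (s (qm q y))

variable {W : ι → ρ → ℤ} {q : κ → MvPolynomial ι ℂ}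

theorem exists_trv (hR : Stb W R) (hq : QP (Orb W) R q) (hx : x ∈ R) (hf : Fr W R x) :
    ∃ s u, Trv W R q x s u := by
  choose m m1 m2 using hf
  obtain ⟨P, Q, h1, h2⟩ := hq.sec x hx
  obtain ⟨τ0, h0⟩ := h2 x hx h1
  let s : (κ → ℂ) → ι → ℂ := fun z => actW W τ0⁻¹ fun i => eval z (P i) / eval z Q
  have s1 : AnalyticAt ℂ s (qm q x) := by
    simpa only [act_eq] using an_act W (u := fun _ a => (τ0⁻¹ a : ℂ)) analyticAt_const
      (AnalyticAt.pi fun i => (an_eval (P i) _).fun_div (an_eval Q _) h1) fun a => Units.ne_zero _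
  have s2 : s (qm q x) = x := by simp only [s, h0, actW_mul, inv_mul_cancel, actW_one]
  have s3 : ∀ y ∈ R, eval (qm q y) Q ≠ 0 → ∃ τ, s (qm q y) = actW W τ y := fun y a b =>
    let ⟨τ, e⟩ := h2 y a b
    ⟨_, by simp only [s, e, actW_mul]; rfl⟩
  have q1 := (an_eval Q _).continuousAt.eventually_ne h1
  have a1 : ∀ a, AnalyticAt ℂ (fun z => eval (s z) (m a)) (qm q x) := fun a =>
    (an_eval (m a) _).comp s1
  have a2 : ∀ a, eval (s (qm q x)) (m a) ≠ 0 := fun a => s2.symm ▸ m1 a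
  refine ⟨s, fun y a => eval y (m a) / eval (s (qm q y)) (m a), s1, AnalyticAt.pi fun a =>
    (an_eval _ x).fun_div ((a1 a).comp (an_qm q x)) (a2 a), s2,
    funext fun a => by rw [s2]; exact div_self (m1 a), ?_, ?_⟩
  · filter_upwards [q1, eventually_all.2 fun a => (a1 a).continuousAt.eventually_ne (a2 a)]
      with z b1 b2 ⟨y, c1, c2⟩
    subst c2
    obtain ⟨σ, e⟩ := s3 y c1 b1
    have c3 : s (qm q y) ∈ R := e ▸ hR σ y c1
    have c4 : qm q (s (qm q y)) = qm q y := hq.inv y c1 _ ⟨σ, e⟩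
    refine ⟨c3, c4, fun τ => funext fun a => ?_⟩
    rw [hq.inv _ c3 _ ⟨τ, rfl⟩, c4, m2 a τ _ c3, mul_div_assoc, div_self (b2 a), mul_one]
  · filter_upwards [(an_qm q x).continuousAt.eventually q1] with y b1 b2
    obtain ⟨σ, e⟩ := s3 y b2 b1
    exact ⟨σ⁻¹, by rw [e, actW_mul, inv_mul_cancel, actW_one]⟩

theorem Trv.eq {s : (κ → ℂ) → ι → ℂ} {u : (ι → ℂ) → ρ → ℂ} (h : Trv W R q x s u) :
    ∀ᶠ y in 𝓝 x, y ∈ R → act W (u y) (s (qm q y)) = y := by
  filter_upwards [h.orb, (an_qm q x).continuousAt.eventually h.sec] with y a b c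
  obtain ⟨τ, e⟩ := a c
  have := (b ⟨y, c, rfl⟩).2.2 τ
  rw [← e] at this
  rw [this, act_eq, ← e]

/-- the quotient of a submanifold by a torus is a submanifold -/
theorem Par.quot (hR : Stb W R) (hq : QP (Orb W) R q) (hf : Fr W R x)
    (h : Par (d + Fintype.card ρ) R x) : Par d (qm q '' R) (qm q x) := by
  obtain ⟨s, u, t⟩ := exists_trv hR hq h.mem hf
  have t1 : Tendsto Prod.fst (𝓝 (qm q x, u x)) (𝓝 (qm q x)) := continuousAt_fst
  have u0 : ∀ a, u x a ≠ 0 := fun a => by simp [t.one]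
  refine Par.of_prod (τ := u x) (F := ρ → ℂ) (by simp) (h.map (f := fun y => (qm q y, u y))
    (g := fun p => act W p.2 (s p.1)) ((an_qm q x).prod t.anu)
    (an_act W analyticAt_snd (AnalyticAt.comp (g := s) t.ans analyticAt_fst) u0) ?_ ?_)
  · filter_upwards [t.eq] with y a b using ⟨⟨⟨y, b, rfl⟩, trivial⟩, a b⟩
  · filter_upwards [t1.eventually t.sec, eventually_all.2 fun a =>
      ((continuous_apply a).comp continuous_snd).continuousAt.eventually_ne
        (show ((fun p : ρ → ℂ => p a) ∘ Prod.snd) (qm q x, u x) ≠ 0 from u0 a)] with p a b c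
    obtain ⟨a1, a2, a3⟩ := a c.1
    have e : act W p.2 (s p.1) = actW W (fun a => Units.mk0 (p.2 a) (b a)) (s p.1) :=
      act_eq W (fun a => Units.mk0 (p.2 a) (b a)) _
    rw [e]
    exact ⟨hR _ _ a1, Prod.ext ((hq.inv _ a1 _ ⟨_, rfl⟩).trans a2) (a3 _)⟩

theorem QP.mono {r : (ι → ℂ) → (ι → ℂ) → Prop} (h : QP r R q) (hs : S ⊆ R) : QP r S q where
  inv y hy := h.inv y (hs hy)
  sec y hy :=
    let ⟨P, Q, h1, h2⟩ := h.sec y (hs hy)
    ⟨P, Q, h1, fun z hz => h2 z (hs hz)⟩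

theorem fr_con {r g : ℕ} {x : Ix (r + 1) g → ℂ} (hx : x ∈ Con (r + 1) g)
    (R : Set (Ix (r + 1) g → ℂ)) : Fr (wA r g) R x := fun a => by
  classical
  obtain ⟨m, h1, h2⟩ := rch hx (P := Finset.univ.filter fun e => x e ≠ 0) (by simp) a.succ 0
  exact ⟨m, h2 x (by simp), fun τ y _ => by simpa [ht] using h1 τ y⟩

end P275QV
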