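import Vale.Agent.P275BW.Fa

/-! Extension of a framed action by a one dimensional torus. -/

open Set Function Matrix

set_option linter.unusedSectionVars false

noncomputable section

namespace Vale.Agent.P275BW

variable {ι ν : Type} [Fintype ν] [DecidableEq ν]

/-- scaling with the weights `e` -/
def sc (e : ι → ℤ) (t : ℂ) (x : ι → ℂ) : ι → ℂ := fun i => t ^ e i * x i

theorem sc_one (e : ι → ℤ) (x : ι → ℂ) : sc e 1 x = x := funext fun i => by simp [sc]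

theorem sc_mul (e : ι → ℤ) (s t : ℂ) (x : ι → ℂ) : sc e (s * t) x = sc e s (sc e t x) :=
  funext fun i => by simp [sc, mul_zpow, mul_assoc]

theorem sc_comm (e e' : ι → ℤ) (s t : ℂ) (x : ι → ℂ) : sc e s (sc e' t x) = sc e' t (sc e s x) :=
  funext fun _ => mul_left_comm _ _ _

/-- the block diagonal matrix `(h, t)` -/
def bl (h : Mq ν) (t : ℂ) : Mq (ν ⊕ Unit) := fromBlocks h 0 0 (of fun _ _ => t)

@[simp] theorem bl_11 (h : Mq ν) (t : ℂ) : (bl h t).toBlocks₁₁ = h := rfl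

@[simp] theorem bl_22 (h : Mq ν) (t : ℂ) : bl h t (.inr ()) (.inr ()) = t := rfl

theorem bl_mul (g h : Mq ν) (s t : ℂ) : bl g s * bl h t = bl (g * h) (s * t) := by
  simp only [bl, fromBlocks_multiply, Matrix.mul_zero, Matrix.zero_mul, add_zero, zero_add]
  congr 1
  ext
  simp [mul_apply]

theorem bl_one : bl (1 : Mq ν) 1 = 1 := by
  ext (_ | _) (_ | _) <;> simp [bl, one_apply]

theorem det_bl (h : Mq ν) (t : ℂ) : (bl h t).det = h.det * t := by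
  simp [bl, det_fromBlocks_zero₂₁]

theorem bl_inv {h : Mq ν} {t : ℂ} (k : h.det ≠ 0) (k' : t ≠ 0) : (bl h t)⁻¹ = bl h⁻¹ t⁻¹ :=
  inv_eq_right_inv (by rw [bl_mul, mul_nonsing_inv _ k.isUnit, mul_inv_cancel₀ k', bl_one])

theorem MS.bl {Y : Type} {S : Subalgebra ℂ (Y → ℂ)} {M : Y → Mq ν} {f : Y → ℂ} (h : MS S M)
    (k : f ∈ S) : MS S fun y => bl (M y) (f y) := by
  rintro (a | a) (b | b)
  exacts [h a b, s_const S 0, s_const S 0, k]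

/-- block diagonal matrices with the first block in `W` -/
def W2 (W : Submodule ℂ (Mq ν)) : Submodule ℂ (Mq (ν ⊕ Unit)) where
  carrier := {H | ∃ w ∈ W, ∃ t, H = bl w t}
  add_mem' := by
    rintro _ _ ⟨v, a, s, rfl⟩ ⟨w, b, t, rfl⟩
    exact ⟨v + w, add_mem a b, s + t, by ext (_ | _) (_ | _) <;> simp [bl]⟩
  zero_mem' := ⟨0, zero_mem _, 0, by ext (_ | _) (_ | _) <;> simp [bl]⟩
  smul_mem' := by
    rintro c _ ⟨w, b, t, rfl⟩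
    exact ⟨c • w, W.smul_mem c b, c * t, by ext (_ | _) (_ | _) <;> simp [bl]⟩

/-- the action of the extended group -/
def A2 (e : ι → ℤ) (A : Mq ν → Mq ν → (ι → ℂ) → ι → ℂ) (H H' : Mq (ν ⊕ Unit)) (x : ι → ℂ) :
    ι → ℂ := fun i => H (.inr ()) (.inr ()) ^ (e i).toNat * H' (.inr ()) (.inr ()) ^ (-e i).toNat *
      A H.toBlocks₁₁ H'.toBlocks₁₁ x i

/-- the character of the extended group -/
def χ2 (χ : Mq ν → ℂ) (m : ℤ) (N : ℕ) (H : Mq (ν ⊕ Unit)) : ℂ :=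
  (H (.inr ()) (.inr ()) ^ m * χ H.toBlocks₁₁) ^ N * H (.inr ()) (.inr ())

/-- `F` is multiplied by `c` and `b` is unchanged under `φ` -/
def Kp (φ : (ι → ℂ) → ι → ℂ) (c : ℂ) (F : (ι → ℂ) → ℂ) (b : (ι → ℂ) → Mq ν) : Prop :=
  ∀ x, F (φ x) = c * F x ∧ (F x ≠ 0 → b (φ x) = b x)

/-- `φ` commutes with the action -/
def Cm2 (W : Submodule ℂ (Mq ν)) (A : Mq ν → Mq ν → (ι → ℂ) → ι → ℂ) (φ : (ι → ℂ) → ι → ℂ) :
    Prop := ∀ h, Gp W h → ∀ x, A h h⁻¹ (φ x) = φ (A h h⁻¹ x)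

variable {W : Submodule ℂ (Mq ν)} {A : Mq ν → Mq ν → (ι → ℂ) → ι → ℂ} {χ : Mq ν → ℂ}
  {F : (ι → ℂ) → ℂ} {b : (ι → ℂ) → Mq ν} {R : Set (ι → ℂ)} {e : ι → ℤ} {m : ℤ}

theorem finrank_W2 (W : Submodule ℂ (Mq ν)) :
    Module.finrank ℂ (W2 W) = Module.finrank ℂ W + 1 := by
  let f : (W × ℂ) →ₗ[ℂ] W2 W :=
    { toFun := fun p => ⟨bl p.1 p.2, _, p.1.2, _, rfl⟩
      map_add' := fun _ _ => Subtype.ext (by ext (_ | _) (_ | _) <;> simp [bl])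
      map_smul' := fun _ _ => Subtype.ext (by ext (_ | _) (_ | _) <;> simp [bl]) }
  rw [← (LinearEquiv.ofBijective f ⟨fun p q k => Prod.ext
    (Subtype.ext (congrArg (fun H : W2 W => H.1.toBlocks₁₁) k))
    (congrArg (fun H : W2 W => H.1 (.inr ()) (.inr ())) k),
    fun ⟨_, w, a, t, k⟩ => ⟨(⟨w, a⟩, t), Subtype.ext k.symm⟩⟩).finrank_eq]
  simp

theorem gp_bl {h : Mq ν} {t : ℂ} (k : Gp W h) (k' : t ≠ 0) : Gp (W2 W) (bl h t) :=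
  ⟨⟨_, k.1, t - 1, by rw [← bl_one]; ext (_ | _) (_ | _) <;> simp [bl]⟩,
    det_bl h t ▸ mul_ne_zero k.2 k'⟩

theorem gp_W2 {H : Mq (ν ⊕ Unit)} (k : Gp (W2 W) H) : ∃ h t, Gp W h ∧ t ≠ 0 ∧ H = bl h t := by
  obtain ⟨⟨w, a, t, k1⟩, k2⟩ := k
  have : H = bl (w + 1) (t + 1) := by
    rw [sub_eq_iff_eq_add.1 k1, ← bl_one]
    ext (_ | _) (_ | _) <;> simp [bl]
  rw [this, det_bl] at k2
  exact ⟨_, _, ⟨by simpa using a, left_ne_zero_of_mul k2⟩, right_ne_zero_of_mul k2, this⟩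

theorem A2_bl {h : Mq ν} {t : ℂ} (k : Gp W h) (k' : t ≠ 0) (x : ι → ℂ) :
    A2 e A (bl h t) (bl h t)⁻¹ x = sc e t (A h h⁻¹ x) := funext fun i => by
  simp only [A2, bl_inv k.2 k', bl_11, bl_22, sc]
  congr 1
  rw [inv_pow, ← zpow_natCast, ← zpow_natCast, ← div_eq_mul_inv, ← zpow_sub₀ k',
    Int.toNat_sub_toNat_neg]

theorem act2 (hA : Act W A) (hc : ∀ t ≠ 0, Cm2 W A (sc e t)) : Act (W2 W) (A2 e A) where
  gmul G H a b := by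
    obtain ⟨g, s, a1, a2, rfl⟩ := gp_W2 a
    obtain ⟨h, t, b1, b2, rfl⟩ := gp_W2 b
    exact bl_mul g h s t ▸ gp_bl (hA.gmul g h a1 b1) (mul_ne_zero a2 b2)
  ginv H b := by
    obtain ⟨h, t, b1, b2, rfl⟩ := gp_W2 b
    exact bl_inv b1.2 b2 ▸ gp_bl (hA.ginv h b1) (inv_ne_zero b2)
  one x := by
    have := A2_bl (e := e) (A := A) (gp_one (W := W)) one_ne_zero x
    rwa [bl_one, inv_one, inv_one, hA.one, sc_one] at this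
  mul G H a b x := by
    obtain ⟨g, s, a1, a2, rfl⟩ := gp_W2 a
    obtain ⟨h, t, b1, b2, rfl⟩ := gp_W2 b
    rw [bl_mul, A2_bl (hA.gmul g h a1 b1) (mul_ne_zero a2 b2), A2_bl a1 a2, A2_bl b1 b2,
      hc t b2 g a1, hA.mul g h a1 b1, sc_mul]
  pol Y S h h' x a b c k := s_mul (s_mul (pow_mem (a _ _) _) (pow_mem (b _ _) _))
    (hA.pol Y S _ _ x (fun _ _ => a _ _) (fun _ _ => b _ _) c k)

theorem ob2 {x y : ι → ℂ} :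
    Ob (W2 W) (A2 e A) x y ↔ ∃ h t, Gp W h ∧ t ≠ 0 ∧ y = sc e t (A h h⁻¹ x) :=
  ⟨fun ⟨_, a, b⟩ =>
    let ⟨h, t, a1, a2, k⟩ := gp_W2 a
    ⟨h, t, a1, a2, by rw [b, k, A2_bl a1 a2]⟩,
   fun ⟨h, t, a1, a2, k⟩ => ⟨_, gp_bl a1 a2, by rw [k, A2_bl a1 a2]⟩⟩

theorem Cm2.two {φ : (ι → ℂ) → ι → ℂ} (h : Cm2 W A φ)
    (k : ∀ t ≠ 0, ∀ x, φ (sc e t x) = sc e t (φ x)) : Cm2 (W2 W) (A2 e A) φ := fun H a x => by
  obtain ⟨g, s, a1, a2, rfl⟩ := gp_W2 a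
  rw [A2_bl a1 a2, A2_bl a1 a2, h g a1, k s a2]

theorem stb2 (h : ∀ h, Gp W h → ∀ x ∈ R, A h h⁻¹ x ∈ R) (k : ∀ t ≠ 0, ∀ x ∈ R, sc e t x ∈ R) :
    ∀ H, Gp (W2 W) H → ∀ x ∈ R, A2 e A H H⁻¹ x ∈ R := fun H a x hx => by
  obtain ⟨g, s, a1, a2, rfl⟩ := gp_W2 a
  exact A2_bl a1 a2 x ▸ k s a2 _ (h g a1 x hx)

theorem χ2_ne (hχ : ∀ h, Gp W h → χ h ≠ 0) (m : ℤ) (N : ℕ) :
    ∀ H, Gp (W2 W) H → χ2 χ m N H ≠ 0 := fun H a => by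
  obtain ⟨g, s, a1, a2, rfl⟩ := gp_W2 a
  exact mul_ne_zero (pow_ne_zero _ (mul_ne_zero (zpow_ne_zero _ a2) (hχ g a1))) a2

theorem Kp.slc (hf : Frm W A χ F b) {φ : (ι → ℂ) → ι → ℂ} {c : ℂ} (h : Kp φ c F b)
    (k : Cm2 W A φ) {x : ι → ℂ} (hx : F x ≠ 0) :
    A (b (φ x)) (b (φ x))⁻¹ (φ x) = φ (A (b x) (b x)⁻¹ x) := by
  rw [(h x).2 hx, k _ (hf.mem x hx)]

/-- the frame of the extended action -/
theorem Frm.two (hf : Frm W A χ F b) (hA : Act W A) (hχ : ∀ h, Gp W h → χ h ≠ 0)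
    (hc : ∀ t ≠ 0, Cm2 W A (sc e t)) (hk : ∀ t ≠ 0, Kp (sc e t) (t ^ m) F b) {i : ι} (hi : e i = 1)
    {N : ℕ} (hN : (fun x => A (b x) (b x)⁻¹ x i * F x ^ (N + 1)) ∈ PlS ι) :
    Frm (W2 W) (A2 e A) (χ2 χ m (N + 2)) (fun x => F x * (A (b x) (b x)⁻¹ x i * F x ^ (N + 1)))
      fun x => bl (b x) (A (b x) (b x)⁻¹ x i)⁻¹ := by
  have h1 := s_mul hf.pl hN
  have h2 := lc_mono hf.pl h1 hN fun _ => rfl
  have h3 : ∀ h t x, Gp W h → t ≠ 0 → F x ≠ 0 → b (sc e t (A h h⁻¹ x)) = b x * h⁻¹ ∧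
      A (b (sc e t (A h h⁻¹ x))) (b (sc e t (A h h⁻¹ x)))⁻¹ (sc e t (A h h⁻¹ x)) i =
        t * A (b x) (b x)⁻¹ x i := fun h t x a1 a2 hx => by
    have : F (A h h⁻¹ x) ≠ 0 := hf.sem h a1 x ▸ mul_ne_zero (hχ h a1) hx
    exact ⟨((hk t a2 _).2 this).trans (hf.eqv h a1 x hx), by
      rw [(hk t a2).slc hf (hc t a2) this, hf.slc hA hχ a1 hx, sc, hi, zpow_one]⟩
  have h4 : ∀ x, F x * (A (b x) (b x)⁻¹ x i * F x ^ (N + 1)) ≠ 0 →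
      F x ≠ 0 ∧ A (b x) (b x)⁻¹ x i ≠ 0 := fun x hx =>
    ⟨left_ne_zero_of_mul hx, left_ne_zero_of_mul (right_ne_zero_of_mul hx)⟩
  refine ⟨h1, fun H a x => ?_, fun x hx => gp_bl (hf.mem x (h4 x hx).1) (inv_ne_zero (h4 x hx).2),
    fun H a x hx => ?_, (hf.lb.mono h2).bl (lc_inv h1 (pow_mem hf.pl (N + 2)) fun x => by
      simp only [Pi.pow_apply]; ring), fun a c => lc_congr (((hf.li.mono h2).bl (h2 (hA.pol _ _ _ _ _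
        hf.lb hf.li (fun i => pl_le _ (pl_crd i)) i))) a c) fun x hx => ?_⟩
  · obtain ⟨h, t, a1, a2, rfl⟩ := gp_W2 a
    rw [A2_bl a1 a2, (hk t a2 _).1, hf.sem h a1]
    by_cases hx : F x = 0
    · simp [hx]
    · rw [(h3 h t x a1 a2 hx).2, χ2, bl_11, bl_22]
      ring
  · obtain ⟨h, t, a1, a2, rfl⟩ := gp_W2 a
    rw [A2_bl a1 a2, (h3 h t x a1 a2 (h4 x hx).1).2, (h3 h t x a1 a2 (h4 x hx).1).1,
      bl_inv a1.2 a2, bl_mul, mul_inv, mul_comm]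
  · simp only [bl_inv (hf.mem x (h4 x hx).1).2 (inv_ne_zero (h4 x hx).2), inv_inv]

/-- **EXT**: frames for the extended action; further symmetries `φ τ` which fix the coordinates
in `I` are kept -/
theorem ext_frm [Finite ι] (hA : Act W A) (hχ : ∀ h, Gp W h → χ h ≠ 0)
    (hc : ∀ t ≠ 0, Cm2 W A (sc e t)) {I : Set ι} (hI : ∀ i ∈ I, e i = 1)
    (h0 : ∀ x ∈ R, ∀ h, Gp W h → ∃ i ∈ I, A h h⁻¹ x i ≠ 0) {T : Type} {φ : T → (ι → ℂ) → ι → ℂ}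
    {c : T → ℂ} (hφ : ∀ τ, Cm2 W A (φ τ)) (hφ' : ∀ τ x, ∀ i ∈ I, φ τ x i = x i)
    (hF : ∀ x ∈ R, ∃ F b, F x ≠ 0 ∧ Frm W A χ F b ∧ (∀ t ≠ 0, Kp (sc e t) (t ^ m) F b) ∧
      ∀ τ, Kp (φ τ) (c τ) F b) :
    ∃ N : ℕ, ∀ x ∈ R, ∃ F b, F x ≠ 0 ∧ Frm (W2 W) (A2 e A) (χ2 χ m N) F b ∧
      ∀ τ, Kp (φ τ) (c τ ^ N) F b := by
  choose F b h1 h2 h3 h4 using fun x : R => hF x.1 x.2
  obtain ⟨γ, _, p, hp⟩ := fin_cover fun c => (h2 c).pl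
  obtain ⟨N, hN⟩ := unif (F := fun q : γ × ι => F (p q.1))
    (f := fun q x => A (b (p q.1) x) (b (p q.1) x)⁻¹ x q.2) (hF := fun q => (h2 (p q.1)).pl)
    fun q => hA.pol _ _ _ _ _ (h2 _).lb (h2 _).li (fun i => pl_le _ (pl_crd i)) _
  refine ⟨N + 2, fun x hx => ?_⟩
  obtain ⟨k, hk⟩ := hp x ⟨x, hx⟩ (h1 _)
  obtain ⟨i, i1, i2⟩ := h0 x hx _ ((h2 _).mem x hk)
  refine ⟨_, _, mul_ne_zero hk (mul_ne_zero i2 (pow_ne_zero _ hk)),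
    (h2 _).two hA hχ hc (h3 _) (hI i i1) (hN (k, i)), fun τ y => ?_⟩
  by_cases hy : F (p k) y = 0
  · simp [(h4 _ τ y).1, hy]
  · simp only [(h4 _ τ).slc (h2 _) (hφ τ) hy, hφ' τ _ i i1, (h4 _ τ y).1]
    exact ⟨by ring, fun _ => by rw [(h4 _ τ y).2 hy]⟩

end Vale.Agent.P275BW
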