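import Vale.Agent.P275QV.Mu
import Vale.Agent.P275RG.Aff
import Vale.Agent.P275TQ.Rg
import Vale.Agent.P275BC.St

/-! Smooth quasi-affine varieties as manifolds with a good compactification. -/

open scoped Manifold ContDiff Topology
open Set Filter Function Topology
open Vale.Agent Vale.Agent.P281Z
open Vale.Agent.P272.K (Cm Chart At)
open Vale.Agent.P277Z (Hol at_chart)
open Vale.Agent.P275RG (Cp Alg Zc cA holA_iff hol_self)
open P275BC (ZC Reg Pav Cell Tor qm QP Orb Stb Ix Rt Rz Gnc wA actW)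

set_option linter.unusedSectionVars false

noncomputable section

namespace P275QV

variable {κ κ' : Type} [Fintype κ] [Fintype κ'] {d d' M : ℕ} {S U Y : Set (κ → ℂ)}
  {S' T : Set (κ' → ℂ)}

theorem subM_of_eqn {S : Set (Cm M)} (h : ∀ x ∈ S, Eqn d S x) : SubM M d S := fun x hx => by
  obtain ⟨c, F, h1, h2, h3, h4⟩ := h x hx
  have a : HolA M c F x := holA_iff.2 fun i => hol_self.2 (analyticAt_pi_iff.1 h2 i)
  exact ⟨c, fun a y => F y a, by simpa using h1, (sbm_iff_ind a (at_chart _)).1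
    (.of_chart a (at_chart x) (at_chart _) h3), h4.mono fun y e => e.trans funext_iff⟩

theorem subM_of_par {S : Set (Cm M)} (h : ∀ x ∈ S, Par d S x) : SubM M d S :=
  subM_of_eqn fun x hx => (h x hx).eqn

/-- Zariski locally closed -/
def LC (S : Set (κ → ℂ)) : Prop := ∃ A B, ZC A ∧ ZC B ∧ S = A \ B

theorem LC.inter (h : LC S) {C : Set (κ → ℂ)} (hC : ZC C) : LC (S ∩ C) :=
  let ⟨A, B, a, b, e⟩ := h
  ⟨A ∩ C, B, a.inter hC, b, by rw [e, inter_sdiff_right_comm]⟩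

theorem LC.diff (h : LC S) {C : Set (κ → ℂ)} (hC : ZC C) : LC (S \ C) :=
  let ⟨A, B, a, b, e⟩ := h
  ⟨A, B ∪ C, a, b.union hC, by rw [e, sdiff_sdiff]⟩

theorem ZC.lc (h : ZC S) : LC S := ⟨S, ∅, h, .empty, by simp⟩

theorem ZC.closed (h : ZC S) : IsClosed S := by
  obtain ⟨s, rfl⟩ := h
  simp only [ofPred_forall]
  exact isClosed_iInter fun P => isClosed_iInter fun _ => isClosed_eq P.continuous_eval continuous_const

theorem Par.diff {C : Set (κ → ℂ)} (hC : ZC C) {x : κ → ℂ} (h : Par d S x) (hx : x ∉ C) :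
    Par d (S \ C) x :=
  h.congr (((ZC.closed hC).isOpen_compl.eventually_mem hx).mono fun _ k => (and_iff_left k).symm)

/-- a manifold with a good compactification and an algebraic embedding onto `S` -/
structure Var (d : ℕ) {κ : Type} [Fintype κ] (S : Set (κ → ℂ)) : Type 1 where
  X : Type
  [top : TopologicalSpace X]
  [cs : ChartedSpace (Cm d) X]
  [mf : IsManifold 𝓘(ℂ, Cm d) ω X]
  ι : X → κ → ℂ
  c : Cp d X
  prj : c.Y.Prj
  reg : ∀ i, P275RG.Reg c fun x => ι x i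
  emb : IsEmbedding ι
  rng : range ι = S
  imm : ∀ x (e : Chart d X), At e x → Injective (fderiv ℂ (fun z => ι (e.symm z)) (e x))

attribute [instance] Var.top Var.cs Var.mf

/-- change of the names of the coordinates -/
def rn (e : κ ≃ κ') : (κ → ℂ) ≃L[ℂ] (κ' → ℂ) :=
  (LinearEquiv.funCongrLeft ℂ ℂ e.symm).toContinuousLinearEquiv

theorem rn_apply (e : κ ≃ κ') (v : κ → ℂ) : rn e v = v ∘ e.symm := rfl

theorem rn_symm (e : κ ≃ κ') (v : κ' → ℂ) : (rn e).symm v = v ∘ e := rfl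

theorem inj_comp {E F G : Type} [NormedAddCommGroup E] [NormedSpace ℂ E] [NormedAddCommGroup F]
    [NormedSpace ℂ F] [NormedAddCommGroup G] [NormedSpace ℂ G] (L : F ≃L[ℂ] G) {f : E → F} {z : E}
    (h : Injective (fderiv ℂ f z)) : Injective (fderiv ℂ (fun z => L (f z)) z) := by
  rw [show (fun z => L (f z)) = L ∘ f from rfl, L.comp_fderiv]
  exact L.injective.comp h

/-- **smooth locally closed sets are varieties** -/
theorem exists_var (hS : LC S) (h : ∀ x ∈ S, Par d S x) : Nonempty (Var d S) := by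
  obtain ⟨A, B, ⟨s, rfl⟩, ⟨t, rfl⟩, hS⟩ := hS
  let e := Fintype.equivFin κ
  obtain ⟨_, _, hE⟩ := P275RG.sub_cs (subM_of_par (d := d) (S := (rn e).symm ⁻¹' S) fun w hw => by
    simpa using (h _ hw).map (S' := (rn e).symm ⁻¹' S) ((rn e).analyticAt _)
      ((rn e).symm.analyticAt _) (.of_forall fun y hy => by simpa using hy)
      (.of_forall fun y hy => ⟨hy, (rn e).apply_symm_apply y⟩))
  obtain ⟨c, h1, h2⟩ := P275RG.aff (P275RG.zc_poly (fun i => P275RG.reg_crd (e i)) s)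
    (P275RG.zc_poly (fun i => P275RG.reg_crd (e i)) t) ⟨hE.hol, hE.inj, hE.imm, hE.rng.trans (by
      rw [hS]; rfl)⟩ .subtypeVal
  exact ⟨⟨_, fun x => (rn e).symm x.1, c, h1, fun i => h2 (e i),
    (rn e).symm.toHomeomorph.isEmbedding.comp .subtypeVal, by
      rw [show (fun x : (rn e).symm ⁻¹' S => (rn e).symm x.1) = (rn e).symm ∘ Subtype.val from rfl,
        range_comp, Subtype.range_coe, image_preimage_eq _ (rn e).symm.surjective],
    fun x k hk => inj_comp _ (hE.imm x k _ hk (at_chart _))⟩⟩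

namespace Var

/-- the affine space -/
def aff (N : ℕ) : Var N (univ : Set (Cm N)) where
  X := Cm N
  ι := id
  c := cA N
  prj := P275RG.cA_prj N
  reg := P275RG.reg_crd
  emb := .id
  rng := range_id
  imm x e he := imm_id x e _ he (at_chart _)

variable (V : Var d S) (V' : Var d' S')

instance : T2Space V.X := V.emb.t2Space

instance : SecondCountableTopology V.X := V.emb.secondCountableTopology

theorem mem (x : V.X) : V.ι x ∈ S := V.rng.le (mem_range_self x)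

theorem ex {y : κ → ℂ} (h : y ∈ S) : ∃ x, V.ι x = y := V.rng.ge h

theorem anV (x : V.X) : AnV d V.ι x := .pi fun i => (V.reg i).hol x

theorem hol {F : (κ → ℂ) → ℂ} {x : V.X} (h : AnalyticAt ℂ F (V.ι x)) :
    Hol d (fun y => F (V.ι y)) x := (V.anV x).cmp h

theorem near {x : V.X} {p : (κ → ℂ) → Prop} (h : ∀ᶠ y in 𝓝 (V.ι x), y ∈ S → p y) :
    ∀ᶠ y in 𝓝 x, p (V.ι y) := (V.emb.continuous.continuousAt.eventually h).mono fun y k => k (V.mem y)

theorem embE (e : κ ≃ Fin M) : Emb d M (fun x => rn e (V.ι x)) (rn e '' S) where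
  hol x := holA_iff.2 fun i => (V.reg (e.symm i)).hol x
  inj := (rn e).injective.comp V.emb.injective
  imm x := .of_chart (holA_iff.2 fun i => (V.reg (e.symm i)).hol x) (at_chart x) (at_chart _)
    (inj_comp (rn e) (V.imm x _ (at_chart x)))
  rng := (range_comp (rn e) V.ι).trans (congrArg _ V.rng)

theorem emb' {S : Set (Cm M)} (V : Var d S) : Emb d M V.ι S :=
  let h := V.embE (Equiv.refl _)
  ⟨h.hol, h.inj, h.imm, V.rng⟩

theorem indE (e : κ ≃ κ') : IsInducing fun x => rn e (V.ι x) :=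
  (rn e).toHomeomorph.isInducing.comp V.emb.isInducing

/-- regular functions -/
theorem reg_of {f : (κ → ℂ) → ℂ} (h : Reg S f) : P275RG.Reg V.c fun x => f (V.ι x) :=
  .of_rat V.reg fun y =>
    let ⟨P, Q, h1, h2⟩ := h _ (V.mem y)
    ⟨P, Q, h1, fun x => h2 _ (V.mem x)⟩

theorem zc {C : Set (κ → ℂ)} (h : ZC C) : Zc V.c (V.ι ⁻¹' C) :=
  let ⟨s, e⟩ := h
  e ▸ P275RG.zc_poly V.reg s

/-- a holomorphic map into a variety -/
theorem holA {Z : Type} [TopologicalSpace Z] [ChartedSpace (Cm d') Z] [IsManifold 𝓘(ℂ, Cm d') ω Z]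
    {f : Z → V.X} {z : Z} (h : ∀ i, Hol d' (fun z => V.ι (f z) i) z) : HolA d' d f z :=
  P275RG.emb_lift (V.embE (Fintype.equivFin κ)).hol (V.embE _).imm (V.indE _)
    (holA_iff.2 fun _ => h _)

/-- an algebraic map into a variety -/
theorem alg_to {Z : Type} [TopologicalSpace Z] [ChartedSpace (Cm d') Z]
    [IsManifold 𝓘(ℂ, Cm d') ω Z] {c : Cp d' Z} {f : Z → V.X}
    (h : ∀ i, P275RG.Reg c fun z => V.ι (f z) i) : Alg c V.c f :=
  P275RG.alg_of_reg (q := fun x => rn (Fintype.equivFin κ) (V.ι x)) (fun _ => V.reg _) (V.indE _)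
    (V.embE _).imm fun _ => h _

theorem exists_map {F : (κ → ℂ) → κ' → ℂ} (h : ∀ y ∈ S, F y ∈ S') :
    ∃ f : V.X → V'.X, ∀ x, V'.ι (f x) = F (V.ι x) :=
  Classical.skolem.1 fun x => V'.ex (h _ (V.mem x))

variable {V V'} {F : (κ → ℂ) → κ' → ℂ} {G : (κ' → ℂ) → κ → ℂ} {f : V.X → V'.X}

/-- regular maps are algebraic -/
theorem alg (hF : ∀ k, Reg S fun y => F y k) (hf : ∀ x, V'.ι (f x) = F (V.ι x)) :
    Alg V.c V'.c f := V'.alg_to fun k => by simpa only [hf] using V.reg_of (hF k)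

/-- a biregular map onto a subset is an embedding -/
theorem emb_of (hF : ∀ k, Reg S fun y => F y k) (hG : ∀ i, Reg T fun w => G w i)
    (hf : ∀ x, V'.ι (f x) = F (V.ι x)) (hT : F '' S = T) (li : ∀ y ∈ S, G (F y) = y) :
    Emb d d' f (V'.ι ⁻¹' T) ∧ IsEmbedding f := by
  have m : ∀ x, V'.ι (f x) ∈ T := fun x => hT ▸ hf x ▸ mem_image_of_mem F (V.mem x)
  have l : ∀ x, G (V'.ι (f x)) = V.ι x := fun x => by rw [hf, li _ (V.mem x)]
  have a := alg hF hf
  have i : Injective f := fun x y e => V.emb.injective (by rw [← l, e, l])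
  refine ⟨⟨a.hol, i, fun x => ?_, ext fun z => ⟨fun ⟨x, e⟩ => e ▸ m x, fun hz => ?_⟩⟩,
    ⟨isInducing_iff_nhds.2 fun x => le_antisymm (a.cont.tendsto x).le_comap ?_, i⟩⟩
  · obtain ⟨H, h1, h2⟩ := reg_ext hG (m x)
    refine Imm.of_comp (g := fun z => rn (Fintype.equivFin κ) (H (V'.ι z))) (holA_iff.2 fun j =>
      V'.hol (F := fun w => H w _) (analyticAt_pi_iff.1 h1 _)) (a.hol.at x)
      (((V.embE (Fintype.equivFin κ)).imm x).cng ?_)
    filter_upwards [(V'.emb.continuous.comp a.cont).continuousAt.eventually h2] with y hy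
    exact congrArg _ ((hy (m y)).trans (l y)).symm
  · obtain ⟨y, h1, h2⟩ := hT.ge hz
    obtain ⟨x, rfl⟩ := V.ex h1
    exact ⟨x, V'.emb.injective ((hf x).trans h2)⟩
  · obtain ⟨H, h1, h2⟩ := reg_ext hG (m x)
    have t : Tendsto (fun y => V'.ι (f y)) (comap f (𝓝 (f x))) (𝓝 (V'.ι (f x))) :=
      (V'.emb.continuous.tendsto _).comp tendsto_comap
    rw [V.emb.isInducing.nhds_eq_comap, ← tendsto_iff_comap, ← l, ← h2.self_of_nhds (m x)]
    exact (h1.continuousAt.tendsto.comp t).congr' ((t.eventually h2).mono fun y hy =>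
      (hy (m y)).trans (l y))

/-- inclusions -/
theorem incl {V : Var d U} {V' : Var d' S} {f : V.X → V'.X} (hf : ∀ x, V'.ι (f x) = V.ι x) :
    Alg V.c V'.c f ∧ Emb d d' f (V'.ι ⁻¹' U) ∧ IsEmbedding f :=
  ⟨alg (F := id) Reg.coord hf, emb_of (F := id) (G := id) Reg.coord Reg.coord hf (image_id _)
    fun _ _ => rfl⟩

/-- the coordinates of a cell -/
theorem cell {a b : ℕ} (V : Var (a + b) S) (c : Cell S (Fin a) (Fin b)) :
    Emb (a + b) (a + b) (fun x => rn finSumFinEquiv (c.ψ (V.ι x)))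
      {z | ∀ i : Fin a, z (Fin.castAdd b i) ≠ 0} ∧
    (IsEmbedding fun x => rn finSumFinEquiv (c.ψ (V.ι x))) ∧
    ∀ k, P275RG.Reg V.c fun x => c.ψ (V.ι x) k := by
  have h := emb_of (V := V) (V' := aff (a + b)) (F := fun y => rn finSumFinEquiv (c.ψ y))
    (G := fun w => c.φ (w ∘ finSumFinEquiv)) (T := {z | ∀ i : Fin a, z (Fin.castAdd b i) ≠ 0})
    (fun _ => c.rψ _) (fun i => (c.rφ i).comp (fun _ => Reg.coord _) fun _ hw => hw) (fun _ => rfl)
    (ext fun w => ⟨fun ⟨y, h1, h2⟩ i => by simpa [← h2, rn_apply] using c.mψ y h1 i, fun hw =>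
      ⟨_, c.mφ (w ∘ finSumFinEquiv) hw, by
        beta_reduce
        rw [c.ri (w ∘ finSumFinEquiv) hw]; exact (rn finSumFinEquiv).apply_symm_apply w⟩⟩) fun y hy => by
      rw [← rn_symm, ContinuousLinearEquiv.symm_apply_apply, c.li y hy]
  exact ⟨h.1, h.2, fun k => V.reg_of (c.rψ k)⟩

end Var

theorem cell_var {a b : ℕ} (hS : LC S) (c : Cell S (Fin a) (Fin b)) : Nonempty (Var (a + b) S) :=
  exists_var hS fun x hx => by simpa using cell_par c hx

/-- **induction along a paving**: the piece `S` is closed in `U ∪ S`, with the complement `U` -/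
theorem pav_var {c : Set (κ → ℂ) → Prop} (hY : LC Y) (hs : ∀ y ∈ Y, Par d Y y) (h : Pav c Y)
    (P : ∀ U : Set (κ → ℂ), Var d U → Prop) (h0 : ∀ V, P ∅ V)
    (step : ∀ U S (V0 : Var d U) (V : Var d (U ∪ S)), c S → LC S → U ∪ S ⊆ Y →
      Zc V.c (V.ι ⁻¹' S) → V.ι ⁻¹' U = (V.ι ⁻¹' S)ᶜ → P U V0 → P _ V) (V : Var d Y) : P Y V := by
  refine h.ind' (fun U => ∀ V, P U V) h0 (fun U S h1 ⟨C, c1, c2⟩ ⟨C', c3, c4⟩ hd hP V => ?_) V
  have e : S = (U ∪ S) ∩ C := ext fun x => by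
    have := Set.ext_iff.1 c2 x
    have := Set.ext_iff.1 c4 x
    have := @Set.disjoint_left.1 hd x
    simp only [mem_union, Set.mem_sdiff, mem_inter_iff] at *
    tauto
  obtain ⟨V0⟩ := exists_var (d := d) (c2 ▸ hY.diff c1 : LC U) fun x hx => by
    subst c2
    exact (hs x hx.1).diff c1 hx.2
  refine step U S V0 V h1 (e ▸ (c4 ▸ hY.diff c3 : LC (U ∪ S)).inter c1) (c4 ▸ sdiff_subset) ?_
    (ext fun x => ⟨fun k => Set.disjoint_left.1 hd k, (V.mem x).resolve_right⟩) (hP V0)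
  have : V.ι ⁻¹' S = V.ι ⁻¹' C := ext fun x =>
    ⟨fun k => (e.le k).2, fun k => e.ge ⟨V.mem x, k⟩⟩
  exact this ▸ V.zc c1

section quot

variable {ρ : Type} [Fintype ρ] {W : κ → ρ → ℤ} {q : κ' → MvPolynomial κ ℂ}

/-- local holomorphic sections of a torus quotient -/
theorem Var.sec (V : Var d (qm q '' S)) (hR : Stb W S) (hq : QP (Orb W) S q) {z : V.X} {x : κ → ℂ}
    (hx : x ∈ S) (hf : Fr W S x) (hz : V.ι z = qm q x) : ∃ s : (κ' → ℂ) → κ → ℂ,
      AnalyticAt ℂ s (V.ι z) ∧ s (V.ι z) = x ∧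
        ∀ᶠ y in 𝓝 z, s (V.ι y) ∈ S ∧ qm q (s (V.ι y)) = V.ι y :=
  let ⟨s, _, t⟩ := exists_trv hR hq hx hf
  ⟨s, hz ▸ t.ans, hz ▸ t.pt, (V.near (hz ▸ t.sec)).mono fun _ k => ⟨k.1, k.2.1⟩⟩

/-- the quotient map is an algebraic surjective submersion -/
theorem Var.quot (V : Var d S) (V' : Var d' (qm q '' S)) (hR : Stb W S) (hq : QP (Orb W) S q)
    (hf : ∀ x ∈ S, Fr W S x) {π : V.X → V'.X} (hπ : ∀ x, V'.ι (π x) = qm q (V.ι x)) :
    Alg V.c V'.c π ∧ Surjective π ∧ ∀ x, Sbm d d' π x := by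
  have a : Alg V.c V'.c π := Var.alg (fun k => Reg.poly (q k)) hπ
  refine ⟨a, fun z => ?_, fun x => ?_⟩
  · obtain ⟨y, h1, h2⟩ := V'.mem z
    obtain ⟨x, rfl⟩ := V.ex h1
    exact ⟨x, V'.emb.injective ((hπ x).trans h2)⟩
  · obtain ⟨s, s1, s2, s3⟩ := V'.sec hR hq (V.mem x) (hf _ (V.mem x)) (hπ x)
    have : ∀ y, ∃ x', s (V'.ι y) ∈ S → V.ι x' = s (V'.ι y) := fun y => by
      by_cases e : s (V'.ι y) ∈ S
      · exact (V.ex e).imp fun _ k _ => k
      · exact ⟨x, fun k => absurd k e⟩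
    choose σ hσ using this
    have e : σ (π x) = x := V.emb.injective ((hσ _ s3.self_of_nhds.1).trans s2)
    have h1 : HolA d' d σ (π x) := V.holA fun i =>
      (V'.hol (F := fun w => s w i) (analyticAt_pi_iff.1 s1 i)).congr
        (s3.mono fun y k => (congrFun (hσ y k.1) i).symm)
    exact e ▸ Sbm.of_comp (a.hol.at _) h1 ((sbm_id (π x)).cng (s3.mono fun y k =>
      V'.emb.injective (by rw [hπ, hσ y k.1, k.2])))

end quot

section rep

open P275BC (RM mu)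

variable {n g r : ℕ}

theorem rm_mu {S : Set (Ix n g → ℂ)} (h : ∀ x ∈ S, ∀ k e, (P275BC.mt x k e).det ≠ 0) : RM S mu := by
  have h1 : ∀ k e, RM S fun x => P275BC.mt x k e := fun _ _ _ _ => Reg.coord _
  have : ∀ l : List (Fin g), RM S fun x => (l.map fun k => P275BC.mt x k false * P275BC.mt x k true *
      (P275BC.mt x k false)⁻¹ * (P275BC.mt x k true)⁻¹).prod := fun l => by
    induction l with
    | nil => exact RM.const _
    | cons k l ih =>
      exact (((((h1 k _).mul (h1 k _)).mul ((h1 k _).inv fun x hx => h x hx k _)).mul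
        ((h1 k _).inv fun x hx => h x hx k _)).mul ih).congr fun x _ => List.prod_cons
  exact (this (List.finRange g)).congr fun x _ => by rw [mu, List.ofFn_eq_map]

theorem zc_of (h : ZC S) (e : ∀ x, x ∈ S ↔ x ∈ U) : ZC U := Set.ext e ▸ h

theorem zc_mu (P : Fin n → Fin n → Prop) (v : Matrix (Fin n) (Fin n) ℂ) :
    ZC {x : Ix n g → ℂ | (∀ k e, (P275BC.mt x k e).det = 1) ∧ ∀ a c, P a c → mu x a c = v a c} := by
  have h0 : ZC {x : Ix n g → ℂ | ∀ k e, (P275BC.mt x k e).det = 1} := by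
    choose C h1 h2 using fun k e => ((Reg.det (S := univ) (M := fun x : Ix n g → ℂ =>
      P275BC.mt x k e) fun _ _ => Reg.coord _).sub (Reg.const 1)).zc
    rw [show {x : Ix n g → ℂ | _} = ⋂ k, ⋂ e, C k e from ext fun x => by
      simp [h2 _ _ x trivial, sub_eq_zero]]
    exact .iInter fun k => .iInter (h1 k)
  choose C h1 h2 using fun a c => ((rm_mu (S := {x : Ix n g → ℂ | ∀ k e, (P275BC.mt x k e).det = 1})
    (fun x hx k e => hx k e ▸ one_ne_zero) a c).sub (Reg.const (v a c))).zc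
  exact zc_of (h0.inter (.iInter fun a => .iInter fun c => .iInter fun _ : P a c => h1 a c))
    fun x => and_congr_right fun hx => by simp [h2 _ _ x hx, sub_eq_zero]

theorem zc_Rt (t : Fin n → ℂ) : ZC (Rt g t) :=
  zc_of (zc_mu (fun a c => c ≤ a) (Matrix.diagonal t)) fun x => and_congr_right fun _ =>
    ⟨fun h => ⟨fun a c k => (h a c k.le).trans (Matrix.diagonal_apply_ne _ k.ne'), fun a =>
      (h a a le_rfl).trans (Matrix.diagonal_apply_eq t a)⟩, fun h a c k =>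
      k.eq_or_lt.elim (fun e => by rw [e, h.2, Matrix.diagonal_apply_eq]) fun e => by
        rw [h.1 a c e, Matrix.diagonal_apply_ne _ e.ne']⟩

theorem zc_Rz (ζ : ℂ) : ZC (Rz n g ζ) :=
  zc_of (zc_mu (fun _ _ => True) (ζ • 1)) fun _ => and_congr_right fun _ =>
    ⟨fun h => Matrix.ext fun a c => h a c trivial, fun h a c _ => congrFun (congrFun h a) c⟩

variable {t : Fin (r + 1) → ℂ} {ζ : ℂ} {q : κ → MvPolynomial (Ix (r + 1) g) ℂ}

theorem lc_x1 (hq : QP (Orb (wA r g)) (Rt g t) q) : LC (qm q '' Rt g t) :=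
  P275TQ.qlc _ _ _ _ _ hq (zc_Rt t) fun x hx _ ⟨τ, e⟩ => e ▸ stb_Rt t τ x hx

theorem lc_f1 (hq : QP (Orb (wA r g)) (Rz (r + 1) g ζ) q) : LC (qm q '' Rz (r + 1) g ζ) :=
  P275TQ.qlc _ _ _ _ _ hq (zc_Rz ζ) fun x hx _ ⟨τ, e⟩ => e ▸ stb_Rz ζ τ x hx

theorem rt_var (ht : Gnc t) (hd : 2 * d + 4 * g + (r + 1) * (r + 2) = 4 * g * (r + 1) ^ 2 + 2) :
    Nonempty (Var d (Rt g t)) := exists_var (ZC.lc (zc_Rt t)) fun _ hx => (rt_eqn ht hx hd).par hx

theorem rz_var (h : IsPrimitiveRoot ζ (r + 1))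
    (hd : d + 2 * g + (r + 1) ^ 2 = 2 * g * (r + 1) ^ 2 + 1) : Nonempty (Var d (Rz (r + 1) g ζ)) :=
  exists_var (ZC.lc (zc_Rz ζ)) fun _ hx => (rz_eqn h hx hd).par hx

/-- `X1 = Rt / T` -/
theorem x1_var (ht : Gnc t) (hq : QP (Orb (wA r g)) (Rt g t) q)
    (hd : 2 * d + 4 * g + r * (r + 5) = 4 * g * (r + 1) ^ 2) : Nonempty (Var d (qm q '' Rt g t)) :=
  exists_var (lc_x1 hq) (x1_par ht hq hd)

/-- `F1 = Rz / T` -/
theorem f1_var (h : IsPrimitiveRoot ζ (r + 1)) (hq : QP (Orb (wA r g)) (Rz (r + 1) g ζ) q)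
    (hd : d + 2 * g + r * (r + 3) = 2 * g * (r + 1) ^ 2) :
    Nonempty (Var d (qm q '' Rz (r + 1) g ζ)) := exists_var (lc_f1 hq) (f1_par h hq hd)

end rep

end P275QV
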