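import Vale.Agent.P275QV.Bd
import Vale.Agent.P275AR.Tg
import Vale.Agent.P275LF.Ext
import Vale.Agent.P275OM.Fm
import Vale.Agent.P275MC.Gy

/-! Curious hard Lefschetz for a cell. -/

open scoped Manifold ContDiff Topology Matrix
open Filter Set Function
open Vale.Agent Vale.Agent.P272.K Vale.Agent.P281Z.Hg Vale.Agent.P275MC Vale.Agent.P275FM
  Vale.Agent.P275AR Vale.Agent.P275MH
open Vale.Agent.P275KU hiding Tor
open Vale.Agent.P275RG (Cp)
open Vale.Agent.P275OM (IsOmg)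
open Vale.Agent.P280Z.Pu (smo_of)
open P275BC (Cell Reg Ix Rt qm QCell Tor)
open P275LF (CHL Gen two)

set_option linter.unusedSectionVars false

noncomputable section

namespace P275QV

section mf

variable {m k : ℕ} {M Z V : Type} [TopologicalSpace M] [ChartedSpace (Cm m) M] [T2Space M]
  [IsManifold 𝓘(ℂ, Cm m) ω M] [TopologicalSpace Z] [ChartedSpace (Cm k) Z] [T2Space Z]
  [IsManifold 𝓘(ℂ, Cm k) ω Z] [TopologicalSpace V] [ChartedSpace (Cm m) V] [T2Space V]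
  [IsManifold 𝓘(ℂ, Cm m) ω V] {i : Z → M} {j : V → M} {c : Cp m M} {cZ : Cp k Z} {cV : Cp m V}
  {x : Hc m (univ : Set M)} {θ η : SF m M}

theorem wt_big (c : Cp m M) {q : ℕ} (h : m + m < q) (x : Hc m (univ : Set M)) : wt c q x = 0 := by
  refine (iso c).injective ?_
  obtain ⟨z, hz, e⟩ := Coh.ind (iso c x)
  rw [iso_wt, map_zero]
  refine (KC_ok c).mem_flt_wt.2 ⟨z, hz, fun l hl => ?_, e⟩ q le_rfl
  refine ((Fam.gl_congr (c' := fun _ _ => 0) z fun s p hp => if_neg ?_).trans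
    (Fam.gl_const z 0)).trans (zero_smul _ _)
  have : (KC c).n s ≤ m := Nat.sub_le _ _
  omega

theorem itH_low (hx : x ∈ flt (wt c) (m + m)) : itH m univ x = 0 := by
  obtain ⟨z, hz, h0, rfl⟩ := hc_ind x
  obtain ⟨y, hy, h1, h2⟩ := (KC_ok c).mem_flt_wt.1 (show iso c (hc z hz h0) ∈
    flt (KC_ok c).wt (m + m) from fun q hq => by rw [← iso_wt, hx q hq, map_zero])
  obtain ⟨e, he⟩ : ∃ e, em c z - y = (KC c).tri.D e := Coh.mk_eq.1 h2
  rw [Dia.tri_D_apply] at he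
  obtain ⟨g, g1, g2, -⟩ := (arr_top c.snc).inv
  have h3 : (KC c).D e ∅ = dd _ _ (e ∅) := by
    refine add_eq_left.2 (show (KC c).δ e ∅ = 0 from ?_)
    rw [Dia.δ_apply, Sys.act_apply]
    exact Finset.sum_eq_zero fun s _ => by
      rw [of_not_not fun h => Nat.succ_ne_zero _ ((arr_ok c.snc).col ∅ s h).symm, zero_smul]
  have h4 : pb (smo_of g1) (em c z ∅) = (oe c).ext z := by
    rw [em_apply, ext0, Dia.Ov.e0_self, ← pb_comp, pb_eq _ Pb1H.smo_id g2, pb_id]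
  have h5 := congrArg (fun u => itc m _ (pb (smo_of g1) (u ∅))) he
  have h6 : ∀ u : SF m c.Y.X, u ∈ Ac m univ := fun u => Ac_univ.ge trivial
  simp only [Pi.sub_apply, map_sub, h4] at h5
  rw [h3, pb_dd, itc_dd (h6 _), ← itc_pj (h6 (pb _ _)), ← pb_pj, ← Fam.dg_apply y,
    show (KC c).dg (m + m) y = 0 from h1 _ le_rfl, Pi.zero_apply, map_zero, map_zero, sub_zero,
    (oe c).itc_ext (ori_of_emb c.emb) hz] at h5
  exact h5

theorem wt_prH (c : Cp m M) (q : ℕ) (l : ℤ) (x : Hc m (univ : Set M)) :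
    wt c q (prH m univ l x) = prH m univ l (wt c q x) :=
  (grd_deg c l).comm (gr_wt c) (gr_wt c) (by omega) x

/-- the weight is determined by the degree -/
def Pure (c : Cp m M) : Prop :=
  ∀ (q : ℕ) (l : ℤ) x, (q : ℤ) ≠ 2 * l - 2 * m → wt c q (prH m univ l x) = 0

theorem Pure.mem (h : Pure c) {a : ℤ} : x ∈ flt (wt c) (a + 1).toNat ↔
    ∀ l : ℤ, a + 1 ≤ 2 * l - 2 * m → prH m univ l x = 0 := by
  refine ⟨fun hx l hl => (gr_wt c).eq_zero fun q => ?_, fun hx q hq => ?_⟩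
  · by_cases e : (q : ℤ) = 2 * l - 2 * m
    · rw [wt_prH, hx q (by omega), map_zero]
    · exact h q l x e
  · rw [← prH_sum x, map_sum]
    refine Finset.sum_eq_zero fun l _ => ?_
    by_cases e : (q : ℤ) = 2 * l - 2 * m
    · rw [hx l (by omega), map_zero]
    · exact h q l x e

theorem prH_exV (oj : OE m j) (l : ℤ) (y : Hc m (univ : Set V)) :
    prH m univ l (exV oj y) = exV oj (prH m univ l y) := by
  obtain ⟨z, hz, rfl⟩ := Coh.ind y
  exact Coh.mk_congr (Subtype.ext (oj.ext_pj z.2 l).symm) _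

theorem prH_bdV (hi : Smo k m i) (he : Topology.IsClosedEmbedding i) (oj : OE m j)
    (rg : range j = (range i)ᶜ) (l : ℤ) (y : Hc k (univ : Set Z)) :
    prH m univ (l + 1) (bdV hi he oj rg y) = bdV hi he oj rg (prH k univ l y) := by
  obtain ⟨z, hz, w, hw, v, hv, h1, h2, rfl, h4⟩ := bdV_bd hi he oj rg y
  have a1 : pj k Z l w = pb hi (pj m M l z) := by rw [pb_pj, h1]
  rw [h4]
  exact ((congrArg _ (hc_congr a1 (pj_Ac l w.2) (dd_pj (congrArg Subtype.val hw) l))).trans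
    (bdV_spec hi he oj rg (pj_Ac l hz) (pj_Ac (l + 1) v.2) (by rw [oj.ext_pj v.2, ← h2, pj_dd])
      (h3 := dd_pj (congrArg Subtype.val hv) _))).symm

theorem Pure.step {hi : Smo k m i} {he : Topology.IsClosedEmbedding i} {oj : OE m j}
    {rg : range j = (range i)ᶜ} (g1 : Grd (wt cZ) (wt cV) 0 (bdV hi he oj rg))
    (g2 : Grd (wt cV) (wt c) 0 (exV oj)) (hm : m = k + 1) (h1 : Pure c) (h2 : Pure cZ) :
    Pure cV := fun q l x hq => by
  obtain ⟨y, hy⟩ := (ex_V hi he oj rg (wt cV q (prH m univ l x))).1 (by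
    rw [← g2.comm (gr_wt _) (gr_wt _) (q' := q) (by omega), ← prH_exV, h1 q l _ hq])
  have h3 : wt cV q (prH m univ l (wt cV q (prH m univ l x))) = wt cV q (prH m univ l x) := by
    rw [← wt_prH, (gr_wt _).idem, prH_prH, if_pos rfl]
  rw [← h3, hy, ← sub_add_cancel l 1, prH_bdV, g1.comm (gr_wt _) (gr_wt _) (q := q) (by omega),
    h2 q _ y (by omega), map_zero]

theorem ex_top [Nonempty M] : ∃ x : Hc m (univ : Set M),
    prH m univ (m + m : ℕ) x = x ∧ itH m univ x = 1 :=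
  let ⟨u, h1, h2⟩ := ex_itc_one (d := m) (x := Classical.arbitrary M) univ_mem
  ⟨hc u h1.1 (dd_top h1.2 rfl), Coh.mk_congr (Subtype.ext (pj_eq h1.2)) _, h2⟩

theorem pure_line [Nonempty M] (h : prH m univ (m + m : ℕ) x = x) (g : ∀ y, y ∈ ℂ ∙ x) :
    Pure c := fun q l y hq => by
  obtain ⟨v, -, h1⟩ := ex_top (m := m) (M := M)
  obtain ⟨s, rfl⟩ := Submodule.mem_span_singleton.1 (g v)
  obtain ⟨t, rfl⟩ := Submodule.mem_span_singleton.1 (g y)
  rw [← h, map_smul, prH_prH]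
  split_ifs with e
  · rcases lt_or_gt_of_ne (show q ≠ m + m by omega) with e1 | e1
    · obtain ⟨r, hr⟩ := Submodule.mem_span_singleton.1 (g (wt c q (t • prH m univ (m + m : ℕ) x)))
      have h2 := itH_low (hr ▸ (gr_wt c).w_flt e1 _ : r • x ∈ flt (wt c) (m + m))
      rw [map_smul, smul_eq_mul] at h1 h2
      rw [← hr, (mul_eq_zero.1 h2).resolve_right fun h3 => by simp [h3] at h1, zero_smul]
    · exact wt_big c e1 _
  · rw [smul_zero, map_zero]

/-- multiplication by a closed 1-form -/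
def wo (h1 : θ ∈ Dg m M 1) (h0 : dd m M θ = 0) : Module.End ℂ (Hc m (univ : Set M)) :=
  Coh.map ((wd θ).restrict fun _ => wd_Ac θ) (Ch.of_anti fun a => Subtype.ext (by
    change dd m M (wd θ a) = -wd θ (dd m M a)
    rw [dd_wd, h0, wd_zero, zero_add, pr_odd h1 odd_one, wd_neg]))

theorem wo_anti (h1 : θ ∈ Dg m M 1) (h0 : dd m M θ = 0) (k1 : η ∈ Dg m M 1) (k0 : dd m M η = 0) :
    wo h1 h0 * wo k1 k0 = -(wo k1 k0 * wo h1 h0) := LinearMap.ext fun x => by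
  obtain ⟨z, hz, rfl⟩ := Coh.ind x
  exact (congrArg (Coh.mkL _) (Subtype.ext (Subtype.ext (wd_anti h1 k1 _)))).trans (map_neg _ _)

theorem prH_wo (h1 : θ ∈ Dg m M 1) (h0 : dd m M θ = 0) (l : ℤ) (x : Hc m (univ : Set M)) :
    prH m univ (l + 1) (wo h1 h0 x) = wo h1 h0 (prH m univ l x) := by
  induction x using Hc_ind with
  | h0 => simp only [map_zero]
  | ha x y hx hy => simp only [map_add, hx, hy]
  | h p z hz _ =>
    refine Coh.mk_congr (Subtype.ext ?_) _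
    change pj m M (l + 1) (wd θ z) = wd θ (pj m M l z)
    by_cases e : l = p
    · rw [e, pj_eq hz.2, pj_eq (add_comm (1 : ℤ) p ▸ wd_Dg h1 hz.2)]
    · rw [pj_ne hz.2 e, pj_ne (wd_Dg h1 hz.2) (by omega), map_zero]

theorem two_wo {ι : Type} [Fintype ι] [DecidableEq ι] {θ : ι → SF m M} {Ω : Matrix ι ι ℂ}
    (h1 : ∀ i, θ i ∈ Dg m M 1) (h0 : ∀ i, dd m M (θ i) = 0)
    (v : Zf m M) (hv : v.1 = ∑ i, ∑ j, Ω i j • wd (θ i) (θ j)) :
    wH univ v = two Ω fun i => wo (h1 i) (h0 i) := LinearMap.ext fun x => by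
  obtain ⟨z, hz, rfl⟩ := Coh.ind x
  obtain ⟨f, hf⟩ : ∃ f : ι → ι → LinearMap.ker (dc m (univ : Set M)), ∀ i j,
      wo (h1 i) (h0 i) (wo (h1 j) (h0 j) (Coh.mk z hz)) = Coh.mkL _ (f i j) ∧
        (f i j).1.1 = wd (θ i) (wd (θ j) z) := ⟨_, fun _ _ => ⟨rfl, rfl⟩⟩
  simp only [two, LinearMap.sum_apply, LinearMap.smul_apply, Module.End.mul_apply, (hf _ _).1]
  simp only [← map_smul, ← map_sum]
  refine congrArg (Coh.mkL _) (Subtype.ext (Subtype.ext ?_))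
  simp only [Submodule.coe_sum, Submodule.coe_smul, (hf _ _).2]
  change wd v.1 z.1 = _
  simp only [hv, wd_sum, wd_smul, wd_wd]

theorem tor_gen {a b : ℕ} {Z : Type} [TopologicalSpace Z] [ChartedSpace (Cm (a + b)) Z]
    [IsManifold 𝓘(ℂ, Cm (a + b)) ω Z] [T2Space Z] {x : Z → Cm (a + b)} (hx : OE (a + b) x)
    (hr : range x = {z | ∀ i, z (Fin.castAdd b i) ≠ 0}) (h0 : ∀ i z, x z (Fin.castAdd b i) ≠ 0) :
    ∃ v, prH (a + b) univ (a + 2 * b) v = v ∧ Gen (fun i =>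
      wo (dlog_Dg (smC_coord hx.smo _) (h0 i)) (dd_dlog _ _)) v := by
  obtain ⟨u, h1, h2, h3⟩ := tor hx hr fun i => isDl_dlog _ (h0 i)
  refine ⟨hc u h1.1 h2, Coh.mk_congr (Subtype.ext (pj_eq h1.2)) _, fun P a1 a2 y => ?_⟩
  obtain ⟨z, hz, z0, rfl⟩ := hc_ind y
  obtain ⟨_, ⟨v, hv, rfl⟩, e⟩ := h3 (((P.comap (Coh.mkL (dc _ univ))).map
    (Submodule.subtype _)).map (Submodule.subtype _)) ⟨_, ⟨_, a1, rfl⟩, rfl⟩
    (fun w hw => ⟨_, ⟨⟨⟨_, dd_Ac hw⟩, Subtype.ext (dd_dd w)⟩, show hc _ (dd_Ac hw) (dd_dd w) ∈ P by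
      rw [hc_zero.2 ⟨w, hw, rfl⟩]; exact zero_mem P, rfl⟩, rfl⟩)
    (by rintro i _ ⟨_, ⟨v, hv, rfl⟩, rfl⟩; exact ⟨_, ⟨_, a2 i _ hv, rfl⟩, rfl⟩) z hz z0
  subst e
  exact hv

end mf

/-- the standard cell -/
def tcell (α β : Type) : Cell (Tor α β) α β :=
  ⟨id, id, Reg.coord, Reg.coord, fun _ h => h, fun _ h => h, fun _ _ => rfl, fun _ _ => rfl⟩

theorem tor_var (a b : ℕ) : Nonempty (Var (a + b) (Tor (Fin a) (Fin b))) :=
  cell_var ⟨univ, _, .univ, .poly (∏ i, .X (.inl i)), ext fun w => by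
    simp [Tor, Finset.prod_eq_zero_iff]⟩ (tcell _ _)

variable {κ : Type} [Fintype κ] {a b : ℕ} {S : Set (κ → ℂ)}

theorem Var.ne {d : ℕ} (W : Var d S) (c : Cell S (Fin a) (Fin b)) : Nonempty W.X :=
  let ⟨x, _⟩ := W.ex (c.mφ 1 fun _ => one_ne_zero); ⟨x⟩

/-- **cells are pure** -/
theorem pure_cell (a : ℕ) : ∀ (b d : ℕ) (_ : a + b = d) {κ : Type} [Fintype κ] {S : Set (κ → ℂ)}
    (W : Var d S) (_ : Cell S (Fin a) (Fin b)), Pure W.c := by
  induction a with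
  | zero =>
    rintro b _ rfl κ _ S W c
    have := W.ne c
    obtain ⟨v, h1, h2⟩ := tor_gen (oe_of_emb (W.cell c).1) (W.cell c).1.rng fun i => i.elim0
    exact pure_line (x := v) (by simpa [two_mul] using h1)
      (h2 _ (Submodule.mem_span_singleton_self v) fun i => i.elim0)
  | succ a ih =>
    intro b d hd κ _ S W c
    obtain ⟨M⟩ : Nonempty (Var d (Tor (Fin a) (Fin (b + 1)))) :=
      (show a + (b + 1) = d by omega) ▸ tor_var a (b + 1)
    obtain ⟨Z⟩ := tor_var a b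
    let e : Fin a ⊕ Fin (b + 1) → Fin (a + 1) ⊕ Fin b :=
      Sum.elim (fun i => .inl i.succ) (Fin.cons (.inl 0) .inr)
    let e' : Fin (a + 1) ⊕ Fin b → Fin a ⊕ Fin (b + 1) :=
      Sum.elim (Fin.cons (.inr 0) .inl) fun i => .inr i.succ
    let F : (Fin a ⊕ Fin b → ℂ) → Fin a ⊕ Fin (b + 1) → ℂ := fun w =>
      Sum.elim (fun i => w (.inl i)) (Fin.cons 0 fun i => w (.inr i))
    let G : (Fin a ⊕ Fin (b + 1) → ℂ) → Fin a ⊕ Fin b → ℂ := fun w => w ∘ Sum.map id Fin.succ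
    have GF : ∀ w, G (F w) = w := fun w => funext (Sum.rec (fun _ => rfl) fun _ => rfl)
    have m1 : ∀ w ∈ {w ∈ Tor (Fin a) (Fin (b + 1)) | w (.inr 0) ≠ 0}, w ∘ e' ∈ Tor _ _ :=
      fun w hw => Fin.cases hw.2 hw.1
    obtain ⟨j, hj⟩ := W.exists_map M (F := fun y => c.ψ y ∘ e) fun y hy i => c.mψ y hy _
    obtain ⟨i, hi⟩ := Z.exists_map M (F := F) fun _ h => h
    obtain ⟨p, hp⟩ := M.exists_map Z (F := G) fun _ h => h
    have r1 : ∀ l, Reg S fun y => (c.ψ y ∘ e) l := fun l => c.rψ _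
    have r2 : ∀ l, Reg (Tor (Fin a) (Fin b)) fun w => F w l :=
      Sum.rec (fun _ => Reg.coord _) (Fin.cases (Reg.const 0) fun _ => Reg.coord _)
    have e1 := Var.emb_of r1 (G := fun w => c.φ (w ∘ e'))
      (fun l => (c.rφ l).comp (fun _ => Reg.coord _) m1) hj
      (ext fun w => ⟨fun ⟨y, h1, h2⟩ => h2 ▸ ⟨fun _ => c.mψ y h1 _, c.mψ y h1 0⟩, fun hw =>
        ⟨_, c.mφ _ (m1 w hw), (congrArg (· ∘ e) (c.ri _ (m1 w hw))).trans
          (funext (Sum.rec (fun _ => rfl) (Fin.cases rfl fun _ => rfl)))⟩⟩)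
      fun y hy => (congrArg c.φ (funext (Sum.rec (Fin.cases rfl fun _ => rfl) fun _ => rfl))).trans
        (c.li y hy)
    have e2 := Var.emb_of r2 (G := G) (T := {w ∈ Tor (Fin a) (Fin (b + 1)) | w (.inr 0) = 0})
      (fun _ => Reg.coord _) hi
      (ext fun w => ⟨fun ⟨y, h1, h2⟩ => h2 ▸ ⟨h1, rfl⟩, fun hw => ⟨G w, hw.1,
        funext (Sum.rec (fun _ => rfl) (Fin.cases hw.2.symm fun _ => rfl))⟩⟩) fun y _ => GF y
    have ap := Var.alg (F := G) (fun _ => Reg.coord _) hp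
    have aj := Var.alg r1 hj
    have he : Topology.IsClosedEmbedding i := ⟨e2.2, by
      rw [e2.1.rng.trans (ext fun x => and_iff_right (M.mem x) : _ = {x | M.ι x (.inr 0) = 0})]
      exact isClosed_eq ((continuous_apply _).comp M.emb.continuous) continuous_const⟩
    exact Pure.step (grd_bdV (smo_of_hol e2.1.hol) he (oe_of_emb e1.1) (by
      rw [e1.1.rng, e2.1.rng]
      exact ext fun x => ⟨fun h k => h.2 k.2, fun h => ⟨M.mem x, fun k => h ⟨M.mem x, k⟩⟩⟩)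
      ap.cont (fun z => Z.emb.injective (by rw [hp, hi, GF])) aj (ap.comp aj))
      (grd_opn e1.1 aj) (by omega) (ih _ _ (by omega) M (tcell _ _)) (ih _ _ rfl Z (tcell _ _))

/-- **curious hard Lefschetz for a cell** -/
theorem Var.chl_cell (W : Var (a + b) S) (c : Cell S (Fin a) (Fin b))
    {Ω : Matrix (Fin a) (Fin a) ℂ} (hs : Ω.transpose = -Ω) (hd : Ω.det ≠ 0) {r : ℤ}
    (hr : 2 * r = a + 2 * b) {hf : ∀ i, SmC (a + b) fun x => c.ψ (W.ι x) (.inl i)}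
    {θ : Fin a → SF (a + b) W.X} (hθ : ∀ i, IsDl (hf i) (θ i)) (v : Zf (a + b) W.X)
    (hv : v.1 = ∑ i, ∑ k, Ω i k • wd (θ i) (θ k)) :
    CHL (wH univ v) r fun a => flt (wt W.c) (a + 1).toNat := by
  have := W.ne c
  have hx := oe_of_emb (W.cell c).1
  have h0 : ∀ i z, rn finSumFinEquiv (c.ψ (W.ι z)) (Fin.castAdd b i) ≠ 0 := fun i z =>
    (W.cell c).1.rng.le ⟨z, rfl⟩ i
  obtain rfl : θ = fun i => dlog (smC_coord hx.smo _) (h0 i) := funext fun i =>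
    ((hθ i).congr _ fun z => by simp [rn_apply]).eq _
  have p := pure_cell a b _ rfl W c
  obtain ⟨u, u1, u2⟩ := tor_gen hx (W.cell c).1.rng h0
  rw [two_wo (fun i => dlog_Dg _ (h0 i)) (fun i => dd_dlog _ _) v hv]
  refine P275LF.cell (W := fun a => flt (wt W.c) (a + 1).toNat) (fun _ _ => wo_anti _ _ _ _)
    (fun _ _ hab => flt_mono (by omega)) (fun i s x hx => p.mem.2 fun n hn => ?_) (b := b)
    (p.mem.2 fun n hn => ?_) u2 (fun e => ?_) hs hd (by rwa [Fintype.card_fin])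
  · rw [← sub_add_cancel n 1, prH_wo, p.mem.1 hx _ (by omega), map_zero]
  · rw [← u1, prH_prH, if_neg (by omega)]
  · obtain ⟨x, x1, x2⟩ := ex_top (m := a + b) (M := W.X)
    rw [← x1, p.mem.1 (e.ge trivial) _ (by rw [Fintype.card_fin]; omega), map_zero] at x2
    exact zero_ne_one x2

/-- the cells of the character variety -/
theorem chl_qcell {r g : ℕ} {t : Fin (r + 1) → ℂ} {q : κ → MvPolynomial (Ix (r + 1) g) ℂ}
    (h : QCell r g t q S) : ∃ (a b : ℕ) (_ : Cell S (Fin a) (Fin b)), ∀ (W : Var (a + b) S)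
      (v : Zf (a + b) W.X), IsOmg (fun x => {y ∈ Rt g t | qm q y = W.ι x}) v.1 →
      CHL (wH univ v) (g * (r + 1) ^ 2 - r - g) fun a => flt (wt W.c) (a + 1).toNat := by
  obtain ⟨a, b, c, l, Ω, h1, h2, h3, h4, h5, h6⟩ := h
  refine ⟨a, b, c, fun W v hv => ?_⟩
  have m : ∀ x, c.ψ (W.ι x) ∈ Tor _ _ := fun x => c.mψ _ (W.mem x)
  have hf : ∀ i, SmC (a + b) fun x => c.ψ (W.ι x) (.inl i) := fun i => by
    simpa [rn_apply] using smC_coord (oe_of_emb (W.cell c).1).smo (Fin.castAdd b i)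
  have hθ := fun i => isDl_dlog (hf i) fun x => m x i
  exact W.chl_cell c h5 h4 (by zify at h1; linarith) hθ v (hv.log (W := fun x => c.ψ (W.ι x))
    (fun x => .pi fun i => ((W.cell c).2.2 i).hol x) m (fun x => reg_an h2 (tor_nhds (m x)))
    (fun x => ⟨(h3 _ (m x)).1, (h3 _ (m x)).2.symm.trans (c.li _ (W.mem x))⟩)
    (fun x => h6 _ (m x)) hθ)

end P275QV
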