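import Vale.Agent.P275BW.Bo

/-! Triangular matrices with distinct diagonal entries are diagonalisable, algebraically. -/

open Matrix Polynomial
open P275BC Vale.Agent.P275BW

noncomputable section

namespace P275QV

variable {n : ℕ} {h : Fin n → ℂ} {v b : Mq (Fin n)}

theorem ut_aeval (hv : UT v) (p : ℂ[X]) : UT (aeval v p) ∧ ∀ a, aeval v p a a = p.eval (v a a) := by
  induction p using Polynomial.induction_on with
  | C c => exact ⟨fun a c k => by simp [algebraMap_matrix_apply, k.ne'], fun a => by
      simp [algebraMap_matrix_apply]⟩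
  | add p q hp hq => exact ⟨fun a c k => by simp [hp.1 a c k, hq.1 a c k], fun a => by
      simp [hp.2, hq.2]⟩
  | monomial k c ih =>
    rw [pow_succ, ← mul_assoc, map_mul, aeval_X]
    exact ⟨ih.1.mul hv, fun a => by rw [ih.1.mul_diag hv, ih.2, eval_mul_X]⟩

/-- the matrix of the normalised eigenvectors -/
def uq (h : Fin n → ℂ) (v : Mq (Fin n)) : Mq (Fin n) :=
  of fun a j => aeval v (Lagrange.basis Finset.univ h j) a j

theorem ms_uq {Y : Type} {S : Subalgebra ℂ (Y → ℂ)} {M : Y → Mq (Fin n)} (k : MS S M)
    (h : Fin n → ℂ) : MS S fun y => uq h (M y) := fun a j => by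
  suffices H : ∀ p : ℂ[X], MS S fun y => aeval (M y) p from H _ a j
  intro p
  induction p using Polynomial.induction_on with
  | C a => simpa only [aeval_C] using MS.const S _
  | add p q hp hq => simpa only [map_add] using hp.add hq
  | monomial l a ih => simpa only [pow_succ, ← mul_assoc, map_mul, aeval_X] using ih.mul k

theorem uni_uq (hh : Function.Injective h) (hv : UT v) (e : ∀ a, v a a = h a) : Uni (uq h v) :=
  ⟨fun a c k => (ut_aeval hv _).1 a c k, fun a => ((ut_aeval hv _).2 a).trans
    (e a ▸ Lagrange.eval_basis_self hh.injOn (Finset.mem_univ a))⟩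

theorem mul_uq (hv : UT v) (e : ∀ a, v a a = h a) : v * uq h v = uq h v * diagonal h := by
  ext a j
  have h1 : aeval v ((X - C (h j)) * Lagrange.basis Finset.univ h j) = 0 := by
    rw [Lagrange.basis_eq_prod_sub_inv_mul_nodal_div (Finset.mem_univ j), mul_left_comm,
      ← Lagrange.nodal_erase_eq_nodal_div (Finset.mem_univ j),
      ← Lagrange.nodal_eq_mul_nodal_erase (Finset.mem_univ j), map_mul, Lagrange.nodal_eq,
      ← funext e, ← charpoly_of_isUpperTriangular v hv.bt, aeval_self_charpoly, mul_zero]
  rw [map_mul, map_sub, aeval_X, aeval_C, sub_mul, sub_eq_zero, ← Algebra.smul_def] at h1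
  rw [mul_diagonal, mul_comm]
  exact congrFun (congrFun h1 a) j

/-- the stabiliser of the line through a regular diagonal matrix -/
theorem diag_of (hh : Function.Injective h) (e : b * diagonal h = diagonal h * b) :
    b = diagonal fun a => b a a := by
  ext a c
  by_cases k : a = c
  · rw [k, diagonal_apply_eq]
  · have := congrFun (congrFun e a) c
    rw [mul_diagonal, diagonal_mul, mul_comm] at this
    rw [diagonal_apply_ne _ k]
    exact (mul_eq_mul_right_iff.1 this).resolve_left fun e => k (hh e).symm

end P275QV
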