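import Vale.Agent.P275CH.Sp
import Vale.Agent.P275BW.Gen
import Vale.Agent.P275QV.Uq

/-! The affine part of the projective bundle over the flag bundle. -/

open Set Topology Function Matrix Sum Filter
open P275BC hiding mt V1
open Vale.Agent Vale.Agent.P275BW Vale.Agent.P275CH
open Vale.Agent.P281Z (HolA Emb Imm AnV imm_id)
open Vale.Agent.P275OM (Mx)
open Vale.Agent.P275ST (zeta dimR)
open Vale.Agent.P275XB (Ok dimZ prim)
open Vale.Agent.P275RG (Alg)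
open Vale.Agent.P275B (Vr)
open P275CC (LB Nc Th)
open P275S (th)

noncomputable section

namespace P275QV

theorem Var.oq {ι κ ρ : Type} [Fintype ι] [Fintype κ] [Fintype ρ] {W : ι → ρ → ℤ}
    {S : Set (ι → ℂ)} {q : κ → MvPolynomial ι ℂ} {d : ℕ} (V : Var d (qm q '' S)) (hR : Stb W S)
    (hq : QP (Orb W) S q) (hf : ∀ x ∈ S, Fr W S x) : ∃ π : S → V.X, (∀ y, V.ι (π y) = qm q y) ∧
      IsOpenQuotientMap π ∧ ∀ y y', π y = π y' ↔ ∃ τ, y.1 = actW W τ y'.1 := by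
  choose π hπ using fun y : S => V.ex (mem_image_of_mem _ y.2)
  refine ⟨π, hπ, ⟨fun z => ?_, V.emb.continuous_iff.2 ?_, isOpenMap_iff_nhds_le.2 fun y =>
    le_map fun U hU => ?_⟩, fun y y' => ⟨fun e => ?_, fun k => V.emb.injective ?_⟩⟩
  · obtain ⟨y, h1, h2⟩ := V.mem z
    exact ⟨⟨y, h1⟩, V.emb.injective ((hπ _).trans h2)⟩
  · rw [show V.ι ∘ π = _ from funext hπ]
    exact continuous_iff_continuousAt.2 fun y =>
      (an_qm q y.1).continuousAt.comp continuousAt_subtype_val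
  · obtain ⟨s, s1, s2, s3⟩ := V.sec hR hq y.2 (hf _ y.2) (hπ y)
    obtain ⟨U', h1, h2⟩ := (mem_nhds_subtype _ _ _).1 hU
    filter_upwards [s3, (s1.continuousAt.comp V.emb.continuous.continuousAt).eventually_mem
      (show U' ∈ 𝓝 (s (V.ι (π y))) from s2.symm ▸ h1)] with z a b
    exact ⟨⟨_, a.1⟩, h2 b, V.emb.injective ((hπ _).trans a.2)⟩
  · obtain ⟨P, Q, h1, h2⟩ := hq.sec _ y'.2
    have e' : qm q y = qm q y' := by rw [← hπ, e, hπ]
    obtain ⟨τ, k⟩ := h2 _ y.2 (e'.symm ▸ h1)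
    obtain ⟨τ', k'⟩ := h2 _ y'.2 h1
    exact ⟨τ⁻¹ * τ', by rw [← actW_mul, ← k', ← e', k, actW_mul, inv_mul_cancel, actW_one]⟩
  · rw [hπ, hπ, hq.inv _ y'.2 _ k]

section lb

variable {E E' : Type} [TopologicalSpace E] [TopologicalSpace E']

theorem triv_pb {Q Q' : Type} [TopologicalSpace Q] [TopologicalSpace Q'] {π : E → Q} {π' : E' → Q'}
    {T : E → E → ℂ → Prop} {T' : E' → E' → ℂ → Prop} (h : Loc π T) (h' : Loc π' T') {G : E' → E}
    (hG : Continuous G) (g : C(Q', Q)) (e : ∀ a, g (π' a) = π (G a))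
    (e' : ∀ a b c, T' a b c → T (G a) (G b) 1) : LB.Triv (h.lb.pb g) := by
  have m : ∀ (p : h.lb.ι) x, g x ∈ h.lb.U p → π (G (h'.rp x)) ∈ h.lb.U p := fun p x k => by
    rwa [← e, h'.π_rp]
  refine ⟨fun p x => p.1.2 (G (h'.rp x)), ⟨fun p => (h'.ctOn (p.2.op.preimage hG)
    (p.2.ct.comp hG.continuousOn fun _ k => k) fun a k => ?_).mono fun x k =>
      ⟨_, h.mem_U.1 (m p x k.1), h'.π_rp x⟩, fun p p' x k k' _ => ?_⟩,
    fun p x k => p.2.nz _ (h.mem_U.1 (m p x k))⟩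
  · obtain ⟨c, hc⟩ := h'.fib _ a (h'.π_rp _)
    exact (mul_one _).symm.trans (p.2.law _ _ _ (e' _ _ c hc) k).2
  · have := h.lb_g (m p x k) (m p' x k')
    rw [← e, h'.π_rp] at this
    exact ((congrArg (· * _) this).trans
      (div_mul_cancel₀ _ (p'.2.nz _ (h.mem_U.1 (m p' x k'))))).symm

variable {n D D' : ℕ} {M : Vr D} {M' : Vr D'} {π : E → M.X} {π' : E' → M'.X}
  {T : Fin n → Fin n → E → E → ℂ → Prop} {T' : Fin n → Fin n → E' → E' → ℂ → Prop}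
  (h : ∀ a b, Loc π (T a b))

theorem dlt_dg : th.Dg (2 * Fintype.card (Pos n)) (dlt M h) := by
  suffices H : ∀ s : Finset (Pos n), th.Dg (2 * s.card)
    (∏ p ∈ s, th.c (h p.1.1 p.1.2).lb : th.E M.X).1 from H _
  intro s
  induction s using Finset.induction_on with
  | empty => exact Th.dg_one
  | insert p s k ih =>
    rw [Finset.prod_insert k, Finset.card_insert_of_notMem k]
    exact (Th.dg_c1 _).mul ih (by push_cast; ring)

theorem dlt_pb (h' : ∀ a b, Loc π' (T' a b)) {G : E' → E} (hG : Continuous G) (g : C(M'.X, M.X))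
    (e : ∀ a, g (π' a) = π (G a)) (e' : ∀ a b x y c, T' a b x y c → T a b (G x) (G y) c) :
    th.pb g (dlt M h) = dlt M' h' :=
  congrArg Subtype.val ((map_prod (th.pe g) _ _).trans (Finset.prod_congr rfl fun _ _ =>
    (Th.c_pb g _).symm.trans (Th.c_iso ((h _ _).iso_pb (h' _ _) hG g e (e' _ _))).symm))

theorem dlt_vn {φ : E → Mx n} (hφ : Continuous φ) (hs : Surjective π)
    (e : ∀ a b x y c, T a b x y c → φ x a b = c * φ y a b) {U : Set M.X} (hU : IsOpen U)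
    (e' : ∀ x, π x ∈ U → ∃ a b, a < b ∧ φ x a b ≠ 0) : th.Vn (dlt M h) U := by
  have := Nc.opn hU
  choose s h1 h2 using fun p : Pos n => (h p.1.1 p.1.2).ex_sec (hφ.matrix_elem _ _) (e _ _)
  refine congrArg Subtype.val ((map_prod (th.pe (P275CC.inc U)) _ _).trans (Th.prod_eq_zero _
    (fun p => Subtype.val ⁻¹' (h p.1.1 p.1.2).lb.NZ (s p))
    (fun p => (h1 p).isOpen_NZ.preimage continuous_subtype_val) (fun x => ?_) fun p =>
      (th.pb_comp _ _ _).symm.trans ((Th.vn_sec (h1 p)).pb _ fun y => y.2)))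
  obtain ⟨y, k⟩ := hs x.1
  obtain ⟨a, b, k1, k2⟩ := e' y (k ▸ x.2)
  exact ⟨⟨(a, b), k1⟩, (h2 _).ge ⟨y, k2, k⟩⟩

end lb

variable {r g : ℕ} {d : ℤ}

/-- the roots of the adjoint torus -/
def TT (S : Set (Ix (r + 1) g → ℂ)) (a b : Fin (r + 1)) (y y' : S) (c : ℂ) : Prop :=
  ∃ τ, y.1 = actW (wA r g) τ y'.1 ∧ c = ht τ a / ht τ b

theorem loc_TT {S : Set (Ix (r + 1) g → ℂ)} {Q : Type} [TopologicalSpace Q] {π : S → Q}
    (hS : S ⊆ Con (r + 1) g) (h1 : IsOpenQuotientMap π)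
    (h2 : ∀ y y', π y = π y' ↔ ∃ τ, y.1 = actW (wA r g) τ y'.1) (a b : Fin (r + 1)) :
    Loc π (TT S a b) := by
  classical
  refine ⟨h1, fun y y' e => ((h2 y y').1 e).elim fun τ k => ⟨_, τ, k, rfl⟩, fun x => ?_⟩
  obtain ⟨m, k1, k2⟩ := rch (hS x.2) (P := Finset.univ.filter fun e => x.1 e ≠ 0) (by simp) b a
  have c : Continuous fun y : S => MvPolynomial.eval y.1 m :=
    m.continuous_eval.comp continuous_subtype_val
  refine ⟨{y | MvPolynomial.eval y.1 m ≠ 0}, fun y => MvPolynomial.eval y.1 m, k2 _ (by simp),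
    isOpen_ne_fun c continuous_const, c.continuousOn, fun _ k => k, ?_⟩
  rintro y y' _ ⟨τ, e, rfl⟩ k
  have := (ht τ a).ne_zero
  have := (ht τ b).ne_zero
  simp only [mem_ofPred_eq, e, k1 τ] at k ⊢
  exact ⟨by positivity, by field_simp⟩

theorem cjx_diag {e : Fin (r + 1) → ℂ} (he : ∀ a, e a ≠ 0) {τ : Fin r → ℂˣ}
    (k : ∀ a c, (ht τ a / ht τ c : ℂ) = e a / e c) (y : Ix (r + 1) g → ℂ) :
    cjx (diagonal e) (diagonal e)⁻¹ y = actW (wA r g) τ y := by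
  rw [inv_eq_right_inv (B := diagonal fun a => (e a)⁻¹) (by simp [he])]
  funext i
  rw [actW, chr_wA, k, cjx, mul_diagonal, diagonal_mul, mul_right_comm]
  rfl

theorem rl_act (v : Fin (r + 1) → ℂ) (τ : Fin r → ℂˣ) (y : Ix (r + 1) g → ℂ) :
    Rl (diagonal fun a => ht τ a) 1 (pt (diagonal v) (actW (wA r g) τ y)) (pt (diagonal v) y) := by
  have k : (diagonal fun a => (ht τ a : ℂ)).det ≠ 0 := by simp [Finset.prod_ne_zero_iff]
  refine ⟨ut_diag _, k, one_ne_zero, ?_, (cjx_diag (fun a => Units.ne_zero _) (fun _ _ => rfl) y).symm⟩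
  rw [one_smul, vm_pt, vm_pt, (commute_diagonal _ _).eq, mul_nonsing_inv_cancel_right _ _ k.isUnit]

theorem cj_diag {n : ℕ} {h v : Mx n} (k : UT h) (k' : h.det ≠ 0) (hv : UT v) (a : Fin n) :
    (h * v * h⁻¹) a a = v a a := by
  rw [(k.mul hv).mul_diag (ut_inv k k'), k.mul_diag hv, inv_diag k k', mul_right_comm,
    mul_inv_cancel₀ (UT.diag_ne k k' a), one_mul]

theorem mem_V0 {v : Mx (r + 1)} (h : v ∈ V0 (r + 1)) : UT v ∧ ∀ a, v a a = v 0 0 * (a + 1) := by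
  obtain ⟨_, k, w, k', rfl⟩ := Submodule.mem_sup.1 h
  obtain ⟨c, rfl⟩ := Submodule.mem_span_singleton.1 k
  have := k'.2
  exact ⟨fun a b e => by simp [h0, k'.1 a b e, e.ne'], fun a => by simp_all [h0]⟩

theorem h0_inj (n : ℕ) : Injective fun a : Fin n => (a : ℂ) + 1 := fun a b e =>
  Fin.ext (by simpa using e)

/-- the point over a tuple -/
def ja (y : Rz (r + 1) g (zeta (r + 1) d)) : EV g d (V0 (r + 1)) :=
  ⟨pt (h0 _) y.1, Submodule.mem_sup_left (Submodule.mem_span_singleton_self _), fun e => by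
    simpa [vm_pt, h0] using congrFun (congrFun e 0) 0, y.2⟩

theorem cont_ja : Continuous (ja : Rz (r + 1) g (zeta (r + 1) d) → _) :=
  (cont_pt continuous_const continuous_subtype_val).subtype_mk _

theorem rl_zero {h : Mx (r + 1)} {t : ℂ} {y y' : EV g d (V0 (r + 1))} (k : Rl h t y.1 y'.1) :
    vm y.1 0 0 = t * vm y'.1 0 0 := by
  rw [k.2.2.2.1, Matrix.smul_apply, cj_diag k.1 k.2.1 (mem_V0 y'.2.1).1, smul_eq_mul]

theorem ja_eq {y y' : Rz (r + 1) g (zeta (r + 1) d)} :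
    mk (ja y) = mk (ja y') ↔ ∃ τ, y.1 = actW (wA r g) τ y'.1 := by
  refine mk_eq.trans ⟨fun ⟨h, t, k⟩ => ?_, fun ⟨τ, e⟩ => ⟨_, _, by
    simpa only [ja, e, h0] using rl_act _ τ _⟩⟩
  obtain rfl : t = 1 := by simpa [ja, vm_pt, h0] using (rl_zero k).symm
  have h1 := UT.diag_ne k.1 k.2.1
  obtain ⟨e, rfl⟩ : ∃ e, h = Matrix.diagonal e := ⟨_, diag_of (h0_inj _) (by
    have := congrArg (· * h) k.2.2.2.1
    simpa only [one_smul, nonsing_inv_mul_cancel_right _ _ k.2.1.isUnit, ja, vm_pt, h0]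
      using this.symm)⟩
  simp only [diagonal_apply_eq] at h1
  have h2 : ∀ a, (ht (fun a => Units.mk0 _ (div_ne_zero (h1 a.succ) (h1 0))) a : ℂ) =
      e a / e 0 := fun a => Fin.cases (by simp [ht, h1]) (fun _ => rfl) a
  exact ⟨_, k.2.2.2.2.trans (cjx_diag h1 (fun a c => by
    rw [h2, h2, div_div_div_cancel_right₀ (h1 0)]) y'.1)⟩

/-- the unipotent matrix which diagonalises -/
def uu (y : Ii (r + 1) g → ℂ) : Mx (r + 1) :=
  uq (fun a => (a : ℂ) + 1) ((vm y 0 0)⁻¹ • vm y)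

/-- the tuple after the diagonalisation -/
def ph (y : Ii (r + 1) g → ℂ) : Ix (r + 1) g → ℂ := cjx (uu y)⁻¹ (uu y)⁻¹⁻¹ (y ∘ inr)

theorem rl_uu {y : Ii (r + 1) g → ℂ} (h : vm y ∈ V0 (r + 1)) (k : vm y 0 0 ≠ 0) :
    Rl (uu y) (vm y 0 0) y (pt (h0 _) (ph y)) := by
  have h1 := ut_smul (vm y 0 0)⁻¹ (mem_V0 h).1
  have h2 : ∀ a, ((vm y 0 0)⁻¹ • vm y) a a = (a : ℂ) + 1 := fun a => by
    rw [Matrix.smul_apply, (mem_V0 h).2 a, smul_eq_mul, inv_mul_cancel_left₀ k]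
  have h3 : Uni (uu y) := uni_uq (h0_inj _) h1 h2
  have h4 := (isUnit_iff_isUnit_det _).1 h3.isUnit
  refine ⟨h3.1, h4.ne_zero, k, ?_, ?_⟩
  · rw [vm_pt, ← show _ * uu y = uu y * h0 _ from mul_uq h1 h2,
      mul_nonsing_inv_cancel_right _ _ h4, smul_inv_smul₀ k]
  · rw [pt_inr, ph, ← cjx_mul, mul_nonsing_inv _ h4, cjx_one]

theorem ex_ja (y : EV g d (V0 (r + 1))) (k : vm y.1 0 0 ≠ 0) :
    ∃ x, x.1 = ph y.1 ∧ mk y = mk (ja x) := by
  have h := rl_uu y.2.1 k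
  have h1 := det_inv_ne h.2.1
  have m : ph y.1 ∈ Rz (r + 1) g (zeta (r + 1) d) := ⟨fun j e => by
    rw [ph, mt_cjx, det_cj h1, y.2.2.2.1], by
    rw [ph, mu_cjx h1, y.2.2.2.2, Matrix.mul_smul, Matrix.smul_mul, Matrix.mul_one,
      mul_nonsing_inv _ h1.isUnit]⟩
  exact ⟨⟨_, m⟩, rfl, mk_eq.2 ⟨_, _, h⟩⟩

theorem an_ph {y : Ii (r + 1) g → ℂ} (h : vm y ∈ V0 (r + 1)) (k : vm y 0 0 ≠ 0) :
    AnalyticAt ℂ ph y := by
  have a1 : MS (AnS y) vm := fun _ _ => an_coord _ y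
  have a2 : MS (AnS y) uu := ms_uq (a1.smul ((a1 0 0).fun_inv k)) _
  have a3 := a2.inv (a2.det.fun_inv (rl_uu h k).2.1)
  exact .pi fun i => ((a3.mul (N := fun y => P275BC.mt (y ∘ inr) i.1 i.2.1) fun _ _ =>
    an_coord _ y).mul (a3.inv (a3.det.fun_inv (det_inv_ne (rl_uu h k).2.1)))) _ _

theorem mem_inc (y : EV g d (V0 (r + 1))) :
    mk y ∈ range (inc (le_sup_right : Vn _ ≤ V0 _)) ↔ vm y.1 0 0 = 0 := by
  refine ⟨fun ⟨z, e⟩ => ?_, fun k => ⟨mk ⟨y.1, ⟨(mem_V0 y.2.1).1, fun a => ?_⟩, y.2.2⟩, rfl⟩⟩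
  · obtain ⟨y', rfl⟩ := mk_quo.surjective z
    obtain ⟨h, t, k⟩ := mk_eq.1 e.symm
    exact (rl_zero k).trans (mul_eq_zero_of_right _ (y'.2.1.2 0))
  · rw [(mem_V0 y.2.1).2, k, zero_mul]

theorem dimZ_add (r : ℕ) (hg : g ≠ 0) :
    dimZ g (r + 1) + 2 * g + (r + 1) ^ 2 = 2 * g * (r + 1) ^ 2 + 1 := by
  obtain ⟨k, rfl⟩ := Nat.exists_eq_add_one_of_ne_zero hg
  rw [dimZ, dimR, show (r + 1) * (r + 1) - 1 = r * (r + 2) from Nat.sub_eq_of_eq_add (by ring),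
    show (r + 1) ^ 2 - 1 = r * (r + 2) from Nat.sub_eq_of_eq_add (by ring), Nat.add_sub_cancel]
  ring

/-- the open embedding into the projective bundle -/
theorem ex_j [Ok g (r + 1) d] {κ : Type} [Fintype κ] {q : κ → MvPolynomial (Ix (r + 1) g) ℂ}
    {D m : ℕ} (W : Var D (qm q '' Rz (r + 1) g (zeta (r + 1) d))) (X : PV g d (V0 (r + 1)) m D)
    (hq : QP (Orb (wA r g)) (Rz (r + 1) g (zeta (r + 1) d)) q) {π : Rz _ g (zeta _ d) → W.X}
    (h1 : ∀ y, W.ι (π y) = qm q y) (h2 : Surjective π)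
    (h3 : ∀ y y', π y = π y' ↔ ∃ τ, y.1 = actW (wA r g) τ y'.1) :
    ∃ j : W.X → X.vr.X, (∀ y, j (π y) = mk (ja y)) ∧ Alg W.c X.vr.cp j ∧
      Emb D D j (range (inc (le_sup_right : Vn _ ≤ V0 _)))ᶜ := by
  let j : W.X → X.vr.X := fun z => mk (ja (surjInv h2 z))
  have e : ∀ y, j (π y) = mk (ja y) := fun y => ja_eq.2 ((h3 _ _).1 (surjInv_eq h2 _))
  clear_value j
  obtain ⟨Z⟩ := rz_var (prim (d := d) g) (dimZ_add r (Ok.hg (r + 1) d : g ≠ 0))
  obtain ⟨a1, a2, a3⟩ := Z.quot W (stb_Rz _) hq (fun x hx => fr_con (rt_con (gnc_root (prim g))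
    (rz_sub hx)) _) (π := fun x => π ⟨_, Z.mem x⟩) fun x => h1 _
  have a : Alg W.c X.vr.cp j := QW.alg_desc ⟨a1, a2, a3⟩ (by
    simp only [e]
    exact X.toQ (M := vr Z) (g := fun x => ja ⟨_, Z.mem x⟩) fun i => by
      rcases i with i | i
      exacts [s_const _ _, Z.reg i])
  have i : Injective j := fun z z' k => by
    obtain ⟨y, rfl⟩ := h2 z
    obtain ⟨y', rfl⟩ := h2 z'
    exact (h3 _ _).2 (ja_eq.1 ((e y).symm.trans (k.trans (e y'))))
  have h0 : ∀ y : Rz _ g (zeta _ d), vm (ja (r := r) y).1 0 0 ≠ 0 := fun y => by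
    simp [ja, vm_pt, h0]
  refine ⟨j, e, a, a.hol, i, fun z => ?_, ext fun w => ?_⟩
  · obtain ⟨y, rfl⟩ := h2 z
    have : Nonempty W.X := ⟨π y⟩
    obtain ⟨σ, s1, s2, s3⟩ := X.sec (ja y)
    refine .of_comp (g := invFun j) (e y ▸ W.holA fun k => (s2.hol (a := fun b => qm q (ph b.1) k)
      ((AnV.pi fun i => (X.crd i).hol _).cmp (G := fun y => qm q (ph y) k) ?_)).congr ?_)
      (a.hol.at _) ((imm_id _).cng (.of_forall fun z => (leftInverse_invFun i z).symm))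
    · rw [s1]
      exact (an_eval _ _).comp (an_ph (ja y).2.1 (h0 y))
    · filter_upwards [s3, ((cont_vm.matrix_elem 0 0).comp continuous_subtype_val).continuousAt.comp
        s2.cont |>.eventually_ne (show vm (σ _).1 0 0 ≠ 0 from s1.symm ▸ h0 y)] with w k1 k2
      obtain ⟨x, k3, k4⟩ := ex_ja (σ w) k2
      rw [← k3, ← h1, ← k1, k4, ← e, leftInverse_invFun i]
  · obtain ⟨y, rfl⟩ := mk_quo.surjective w
    refine Iff.trans ⟨fun k => ?_, fun k => ?_⟩ (mem_inc y).not.symm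
    · obtain ⟨z, k⟩ := k
      obtain ⟨x, rfl⟩ := h2 z
      obtain ⟨h, t, k'⟩ := mk_eq.1 (k.symm.trans (e x))
      exact (rl_zero k').trans_ne (mul_ne_zero k'.2.2.1 (h0 x))
    · obtain ⟨x, -, k'⟩ := ex_ja y k
      exact ⟨_, (e x).trans k'.symm⟩

theorem aff : AFF := by
  intro r g d _ κ _ q d1 D W1 W m X hT m' D' X' hL hq
  have c1 := rt_con (g := g) (gnc_root (prim (n := r + 1) (d := d) g))
  have c0 := rz_sub.trans c1
  have hq0 := QP.mono hq rz_sub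
  obtain ⟨π1, a1, a2, a3⟩ := W1.oq (stb_Rt _) hq fun x hx => fr_con (c1 hx) _
  obtain ⟨π, b1, b2, b3⟩ := W.oq (stb_Rz _) hq0 fun x hx => fr_con (c0 hx) _
  obtain ⟨i, hi⟩ := W.exists_map W1 (F := id) fun y hy => image_mono rz_sub hy
  obtain ⟨j, j1, j2, j3⟩ := ex_j W X hq0 b1 b2.surjective b3
  have i1 := (Var.incl hi).1
  have i2 : ∀ y, i (π y) = π1 (inclusion rz_sub y) := fun y =>
    W1.emb.injective (by rw [hi, a1]; exact b1 y)
  have i3 : IsClosedEmbedding i := cemb_quot b2.isQuotientMap a2.isQuotientMap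
    (.inclusion _ ((ZC.closed (zc_Rz _)).preimage continuous_subtype_val)) i2
    (Var.incl hi).2.2.injective fun y z k => by
      obtain ⟨x, rfl⟩ := b2.surjective z
      obtain ⟨τ, e⟩ := (a3 _ _).1 (k.trans (i2 x))
      exact ⟨⟨y.1, e ▸ stb_Rz _ τ _ x.2⟩, rfl⟩
  have L1 := loc_TT c1 a2 a3
  have L0 := loc_TT c0 b2 b3
  refine ⟨⟨i, i1.cont⟩, ⟨j, j2.cont⟩, dlt (vr W1) L1, hi, fun z y k k' => ?_, i1, i3, j2, j3,
    ?_, ?_, ?_, ?_⟩
  · obtain rfl : z = π ⟨_, y.2.2.2⟩ := W.emb.injective (k'.symm.trans (b1 ⟨_, y.2.2.2⟩).symm)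
    exact (j1 _).trans (congrArg mk (Subtype.ext ((congrArg (pt · _) k.symm).trans (pt_vm y.1))))
  · refine triv_pb hT (L0 0 0) cont_ja _ j1 ?_
    rintro y y' _ ⟨τ, e, rfl⟩
    exact ⟨_, by simpa only [ja, e, h0, _root_.inv_one] using rl_act _ τ _⟩
  · exact dlt_dg (M := vr W1) L1
  · refine dlt_vn (M := vr W1) (φ := fun y => mu y.1) L1
      (continuous_matrix fun a b => continuous_iff_continuousAt.2 fun y => ((mu_der (fun k e =>
        y.2.1 k e ▸ one_ne_zero) 0).1 a b).continuousAt.comp continuousAt_subtype_val)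
      a2.surjective ?_ i3.isClosed_range.isOpen_compl fun y k => by_contra fun k' => k ?_
    · rintro a b y y' _ ⟨τ, e, rfl⟩
      rw [e, mu_act, ad_dT]
    · refine ⟨π ⟨y.1, y.2.1, Matrix.ext fun a b => ?_⟩, i2 _⟩
      rcases lt_trichotomy a b with l | rfl | l
      · simpa [one_apply_ne l.ne] using not_not.1 fun e => k' ⟨a, b, l, e⟩
      · simpa using y.2.2.2 a
      · simpa [one_apply_ne l.ne'] using y.2.2.1 a b l
  · refine (dlt_pb (M := vr W1) (M' := vr W) L1 L0 (continuous_inclusion _) _ i2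
      fun _ _ _ _ _ k => k).trans (dlt_pb (M := X'.vr) (M' := vr W) hL L0 (G := fun y =>
        ⟨pt 1 y.1, Submodule.mem_span_singleton_self _, one_ne_zero, y.2⟩)
      ((cont_pt continuous_const continuous_subtype_val).subtype_mk _) _
        (fun y => congrArg (prj _) (j1 y)) ?_).symm
    rintro a b y y' _ ⟨τ, e, rfl⟩
    exact ⟨_, _, by simpa only [e, diagonal_one] using rl_act (fun _ => 1) τ y'.1, by simp⟩

end P275QV
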