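import Vale.Agent.P275QV.Ret
import Vale.Agent.P275MH.Tri
import Vale.Agent.P275KU.Tor
import Vale.Agent.P275AR.Dua

/-! The coboundary of a variety and a closed cell is graded. -/

open scoped Manifold ContDiff Topology
open Filter Set Function
open Vale.Agent Vale.Agent.P272.K Vale.Agent.P281Z.Hg Vale.Agent.P275MC Vale.Agent.P275FM
  Vale.Agent.P275AR Vale.Agent.P275KU Vale.Agent.P275MH
open P275BC (Cell ZC)

set_option linter.unusedSectionVars false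

noncomputable section

namespace P275QV

section mf

variable {m k : ℕ} {M M' Z Z' V V' : Type} [TopologicalSpace M] [ChartedSpace (Cm m) M] [T2Space M]
  [IsManifold 𝓘(ℂ, Cm m) ω M] [TopologicalSpace Z] [ChartedSpace (Cm k) Z] [T2Space Z]
  [IsManifold 𝓘(ℂ, Cm k) ω Z] [TopologicalSpace V] [ChartedSpace (Cm m) V] [T2Space V]
  [IsManifold 𝓘(ℂ, Cm m) ω V] [TopologicalSpace M'] [ChartedSpace (Cm m) M'] [T2Space M']
  [IsManifold 𝓘(ℂ, Cm m) ω M'] [TopologicalSpace Z'] [ChartedSpace (Cm k) Z'] [T2Space Z']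
  [IsManifold 𝓘(ℂ, Cm k) ω Z'] [TopologicalSpace V'] [ChartedSpace (Cm m) V'] [T2Space V']
  [IsManifold 𝓘(ℂ, Cm m) ω V'] {i : Z → M} {j : V → M} {i' : Z' → M'} {j' : V' → M'}
  {a : M' → M} {b : Z' → Z} {c : V' → V}

theorem oe_comp (h : OE m j') (h' : OE m a) : OE m fun x => a (j' x) :=
  ⟨Pb1H.smo_comp h.smo h'.smo, h'.inj.comp h.inj, fun x => by
    obtain ⟨g, a1, a2, a3⟩ := h.inv x
    obtain ⟨g', b1, b2, b3⟩ := h'.inv (j' x)
    refine ⟨fun y => g (g' y), (congrArg g b1).trans a1, SmA.comp (b1.symm ▸ a2) b2, ?_⟩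
    filter_upwards [b3, b2.cont.eventually (b1.symm ▸ a3)] with y k1 k2
    rw [k2, k1]⟩

/-- base change for the extension by zero -/
theorem pb_ext_bc (hi : Smo k m i) (hi' : Smo k m i') (ha : OE m a) (hb : OE k b)
    (e : ∀ x, a (i' x) = i (b x)) (k1 : ∀ y, i y ∈ range a → y ∈ range b) {z : SF m M'}
    (hz : z ∈ Ac m univ) : pb hi (ha.ext z) = hb.ext (pb hi' z) :=
  (hb.ext_eq (fun y hy => pb_ZP hi (ha.ext_rg hz _ fun h => hy (k1 y h))) (by
    rw [← pb_comp hb.smo hi, pb_eq _ (Pb1H.smo_comp hi' ha.smo) fun x => (e x).symm,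
      pb_comp hi' ha.smo, ha.pb_ext hz])).symm

/-- the coboundary commutes with the extension by zero -/
theorem bdV_nat (hi : Smo k m i) (he : Topology.IsClosedEmbedding i) (oj : OE m j)
    (rg : range j = (range i)ᶜ) (hi' : Smo k m i') (he' : Topology.IsClosedEmbedding i')
    (oj' : OE m j') (rg' : range j' = (range i')ᶜ) (ha : OE m a) (hb : OE k b) (hc : OE m c)
    (e1 : ∀ x, a (i' x) = i (b x)) (e2 : ∀ x, a (j' x) = j (c x))
    (k1 : ∀ y, i y ∈ range a → y ∈ range b) (k2 : ∀ y, j y ∈ range a → y ∈ range c) :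
    bdV hi he oj rg ∘ₗ exV hb = exV hc ∘ₗ bdV hi' he' oj' rg' := LinearMap.ext fun x => by
  obtain ⟨z, hz, w, hw, y, hy, h1, h2, rfl, h4⟩ := bdV_bd hi' he' oj' rg' x
  have a1 := oj'.ext_Ac y.2
  have a2 : oj.ext (hc.ext y) = ha.ext (oj'.ext y) := oj.ext_eq (by
    obtain ⟨K, -, b2, b3⟩ := ha.ext_Ac a1
    refine Sp_mono (b2.trans ?_) b3
    rintro _ ⟨_, ⟨x, -, rfl⟩, rfl⟩
    exact ⟨_, (e2 x).symm⟩) (by
    rw [pb_ext_bc oj.smo oj'.smo ha hc e2 k2 (Ac_mono (subset_univ _) a1), oj'.pb_ext y.2])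
  have a3 : hb.ext w = pb hi (ha.ext z) := by rw [pb_ext_bc hi hi' ha hb e1 k1 hz, h1]
  rw [LinearMap.comp_apply, LinearMap.comp_apply, h4]
  have a4 : dd k Z (hb.ext w) = 0 := by
    rw [← hb.ext_dd w.2, show dd k Z' w = 0 from congrArg Subtype.val hw, map_zero]
  have a5 : dd m V (hc.ext y) = 0 := by
    rw [← hc.ext_dd y.2, show dd m V' y = 0 from congrArg Subtype.val hy, map_zero]
  exact (congrArg _ (hc_congr a3 (Ac_mono (subset_univ _) (hb.ext_Ac w.2)) a4)).trans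
    (bdV_spec hi he oj rg (Ac_mono (subset_univ _) (ha.ext_Ac hz))
      (Ac_mono (subset_univ _) (hc.ext_Ac y.2)) (by rw [← ha.ext_dd hz, h2, a2]) (h3 := a5))

/-- the generator of the cohomology of a cell can be moved off a hypersurface -/
theorem tor_off {S : Set (Fin k)} {r : ℤ} (h : Tor k S r) {x : Z → Cm k} (hx : OE k x)
    (hr : range x = TS S) {θ : S → SF k Z} (hθ : ∀ i : S, IsDl (smC_coord hx.smo i) (θ i))
    {Q : MvPolynomial (Fin k) ℂ} (hQ : Q ≠ 0) :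
    ∃ u ∈ Ac k {z | MvPolynomial.eval (x z) Q ≠ 0}, dd k Z u = 0 ∧
      ∀ P : Submodule ℂ (SF k Z), u ∈ P → (∀ w ∈ Ac k univ, dd k Z w ∈ P) →
        (∀ i, ∀ v ∈ P, wd (θ i) v ∈ P) → ∀ z ∈ Ac k univ, dd k Z z = 0 → z ∈ P := by
  classical
  obtain ⟨u, ⟨⟨K, k1, k2, k3⟩, h1⟩, h2, J, deg, β, h3, h4⟩ := h
  obtain ⟨R, -, hR⟩ := k1.isBounded.exists_pos_norm_lt
  let t : Cm k := fun i => if i ∈ S then 0 else R
  obtain ⟨l, l1, l2⟩ := amo hQ (k1.image (continuous_add_const t)) (by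
    rintro _ ⟨z, hz, rfl⟩ i
    by_cases hi : i ∈ S
    · simpa [t, hi] using k2 hz i hi
    · intro e
      have : z i = -R := by simpa [t, hi, add_eq_zero_iff_eq_neg] using e
      have h5 := (norm_le_pi_norm z i).trans_lt (hR z hz)
      rw [this, norm_neg, Complex.norm_real] at h5
      exact (le_abs_self R).not_gt h5)
  let σ : Cm k ≃ₜ Cm k :=
    { toFun := fun z => l⁻¹ * z - t
      invFun := fun z => l * (z + t)
      left_inv := fun z => funext fun i => by simp [l1]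
      right_inv := fun z => funext fun i => by simp [l1] }
  have hy : OE k fun z => σ (x z) := oe_comp hx (.of_homeo σ
    (smo_self (show ContDiff ℝ ∞ fun z : Cm k => l⁻¹ * z - t by fun_prop))
    (smo_self (show ContDiff ℝ ∞ fun z : Cm k => l * (z + t) by fun_prop)))
  have s1 : ∀ z, ∀ i ∈ S, σ z i = (l i)⁻¹ * z i := fun z i hi => by simp [σ, t, hi]
  have hr' : range (fun z => σ (x z)) = TS S := ext fun w => ⟨fun ⟨z, e⟩ i hi => by
    rw [← e]
    exact (s1 _ i hi).trans_ne (mul_ne_zero (inv_ne_zero (l1 i)) (hr.le ⟨z, rfl⟩ i hi)), fun hw => by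
    obtain ⟨z, e⟩ := hr.ge (show σ.symm w ∈ TS S from fun i hi k => hw i hi (by
      rw [← σ.apply_symm_apply w, s1 _ i hi, k, mul_zero]))
    exact ⟨z, by simp only [e, σ.apply_symm_apply]⟩⟩
  have h5 : (fun z => σ (x z)) ⁻¹' TS S = univ := by rw [← hr', preimage_range]
  refine ⟨pb hy.smo u, ⟨_, hy.cpt k1 (k2.trans hr'.ge), fun z hz => ?_, pb_Sp _ k3⟩,
    by rw [← pb_dd, h2, map_zero], fun P a1 a2 a3 z hz z0 => (h5 ▸ h3.pb hy hr'.ge :).span'
      (h4 (P.comap (pb hy.smo)) a1 fun i hi v hv w hw => ?_) a2 hz z0⟩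
  · have := l2 _ ⟨_, hz, rfl⟩
    rwa [show l * (σ (x z) + t) = x z from σ.symm_apply_apply _] at this
  · have h6 := congrArg (pb hy.smo) hw
    have h7 : IsDl (smC_coord hy.smo i) (θ ⟨i, hi⟩) := by
      simpa using ((isDl_const (l i)⁻¹).mul (hθ ⟨i, hi⟩)).congr (smC_coord hy.smo i)
        fun z => (s1 _ i hi).symm
    rw [pb_wd, pb_wd, pb_dd, co, pb_fn, ← h7, wd_wd] at h6
    rw [Submodule.mem_comap, fn_cancel _ (fun y => (hr'.le ⟨y, rfl⟩) i hi) h6]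
    exact a3 _ _ hv

theorem tor_cast (a b : ℕ) : Tor (a + b) (range (Fin.castAdd b)) (a + (b + b : ℕ)) :=
  (tor_univ a).prod (tor_aff (S := ∅) fun _ h => h) (fun i => iff_of_true ⟨i, rfl⟩ trivial)
    fun i => iff_of_false (fun ⟨j, h⟩ => by
      have := congrArg Fin.val h
      simp only [Fin.val_castAdd, Fin.val_natAdd] at this
      omega) fun h => h

/-- the extension by zero from a dense Zariski open part of a cell is onto -/
theorem exV_surj {S : Set (Fin k)} {r : ℤ} (h : Tor k S r) {x : Z → Cm k} (hx : OE k x)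
    (hr : range x = TS S) {Q : MvPolynomial (Fin k) ℂ} (hQ : Q ≠ 0) (hb : OE k b)
    (k1 : ∀ z, MvPolynomial.eval (x z) Q ≠ 0 → z ∈ range b) : Surjective (exV hb) := fun v => by
  have h0 : ∀ (i : S) z, x z i ≠ 0 := fun i z => hr.le ⟨z, rfl⟩ i i.2
  obtain ⟨u, u1, u2, u3⟩ := tor_off h hx hr (fun i => isDl_dlog _ (h0 i)) hQ
  obtain ⟨z, hz, z0, rfl⟩ := hc_ind v
  have e : hb.ext (pb hb.smo u) = u :=
    let ⟨_, _, b2, b3⟩ := u1
    hb.ext_pb (Sp_mono (b2.trans k1) b3)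
  obtain ⟨_, ⟨y, ⟨y1, y2⟩, rfl⟩, _, ⟨w, w1, rfl⟩, e1⟩ := Submodule.mem_sup.1 (u3
    ((Ac k univ ⊓ LinearMap.ker (dd k Z')).map hb.ext ⊔ (Ac k univ).map (dd k Z))
    (Submodule.mem_sup_left ⟨_, ⟨Ac_mono (subset_univ _) (hb.pb_Ac k1 u1), by
      rw [SetLike.mem_coe, LinearMap.mem_ker, ← pb_dd, u2, map_zero]⟩, e⟩)
    (fun w hw => Submodule.mem_sup_right ⟨w, hw, rfl⟩) (fun i v hv => by
      obtain ⟨_, ⟨y, ⟨y1, y2⟩, rfl⟩, _, ⟨w, w1, rfl⟩, rfl⟩ := Submodule.mem_sup.1 hv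
      rw [map_add]
      refine add_mem (Submodule.mem_sup_left ⟨_, ⟨wd_Ac _ y1, ?_⟩, hb.ext_wd y1 _⟩)
        (Submodule.mem_sup_right
          ⟨-wd (dlog (smC_coord hx.smo i) (h0 i)) w, neg_mem (wd_Ac _ w1), ?_⟩)
      · rw [SetLike.mem_coe, LinearMap.mem_ker, dd_wd, ← pb_dd, dd_dlog, map_zero, wd_zero,
          LinearMap.mem_ker.1 y2, map_zero, add_zero]
      · rw [map_neg, dd_wd, dd_dlog, wd_zero, zero_add, pr_odd (dlog_Dg _ _) odd_one, wd_neg, neg_neg])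
    z hz z0)
  exact ⟨P275AR.hc y y1 y2, (hc_eq (a := hb.ext y) (ha := Ac_mono (subset_univ _) (hb.ext_Ac y1))
    (h := by rw [← hb.ext_dd y1, LinearMap.mem_ker.1 y2, map_zero])).2
      ⟨-w, neg_mem w1, by rw [← e1, map_neg]; abel⟩⟩

end mf

variable {κ : Type} [Fintype κ] {d a b : ℕ} {M S U : Set (κ → ℂ)}

namespace Var

variable {V : Var d M} {W : Var (a + b) S} {V0 : Var d U} {i : W.X → V.X} {j : V0.X → V.X}

theorem oe {V : Var d M} {V0 : Var d U} {j : V0.X → V.X} (hj : ∀ x, V.ι (j x) = V0.ι x) : OE d j :=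
  oe_of_emb (incl hj).2.1

theorem smo {e : ℕ} {W : Var e S} {i : W.X → V.X} (hi : ∀ x, V.ι (i x) = W.ι x) : Smo e d i :=
  smo_of_hol (incl hi).1.hol

theorem grd_exV (hj : ∀ x, V.ι (j x) = V0.ι x) : Grd (wt V0.c) (wt V.c) 0 (exV (oe hj)) :=
  grd_opn (incl hj).2.1 (incl hj).1

/-- **the coboundary of a closed cell is graded** -/
theorem grd_bd (c : Cell S (Fin a) (Fin b)) (hi : ∀ x, V.ι (i x) = W.ι x)
    (hj : ∀ x, V.ι (j x) = V0.ι x) (he : Topology.IsClosedEmbedding i)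
    (rg : range j = (range i)ᶜ) : Grd (wt W.c) (wt V0.c) 0 (bdV (smo hi) he (oe hj) rg) := by
  have s1 : S ⊆ M := fun y hy => let ⟨x, e⟩ := W.ex hy; e ▸ hi x ▸ V.mem _
  have s2 : U ⊆ M := fun y hy => let ⟨x, e⟩ := V0.ex hy; e ▸ hj x ▸ V.mem _
  obtain ⟨C, Ψ, Q, h1, h2, h3, h4, h5, h6⟩ := ret s1 c
  obtain ⟨V'⟩ := V.opn h1
  obtain ⟨W'⟩ := W.opn h1
  obtain ⟨V0'⟩ := V0.opn h1
  obtain ⟨i', hi'⟩ := W'.exists_map V' (F := id) (sdiff_subset_sdiff_left s1)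
  obtain ⟨j', hj'⟩ := V0'.exists_map V' (F := id) (sdiff_subset_sdiff_left s2)
  obtain ⟨p, hp⟩ := V'.exists_map V (F := id) fun _ h => h.1
  obtain ⟨q, hq⟩ := W'.exists_map W (F := id) fun _ h => h.1
  obtain ⟨s, hs⟩ := V0'.exists_map V0 (F := id) fun _ h => h.1
  obtain ⟨ψ, hψ⟩ := V'.exists_map W' h5
  simp only [id] at hi' hj' hp hq hs
  have r1 : range i' = p ⁻¹' range i := by
    rw [(incl hi').2.1.rng, (incl hi).2.1.rng]
    exact ext fun x => ⟨fun h => show V.ι (p x) ∈ _ from hp x ▸ h.1,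
      fun h => ⟨hp x ▸ (show V.ι (p x) ∈ _ from h), (V'.mem x).2⟩⟩
  have r2 : range j' = p ⁻¹' range j := by
    rw [(incl hj').2.1.rng, (incl hj).2.1.rng]
    exact ext fun x => ⟨fun h => show V.ι (p x) ∈ _ from hp x ▸ h.1,
      fun h => ⟨hp x ▸ (show V.ι (p x) ∈ _ from h), (V'.mem x).2⟩⟩
  have he' : Topology.IsClosedEmbedding i' :=
    ⟨(incl hi').2.2, r1 ▸ he.isClosed_range.preimage (incl hp).1.cont⟩
  have rg' : range j' = (range i')ᶜ := by rw [r1, r2, rg, preimage_compl]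
  have aψ := alg h4 hψ
  have hc := W.cell c
  refine .of_surj (gr_wt _) (gr_wt _) (grd_exV hq) (exV_surj (tor_cast a b) (oe_of_emb hc.1)
    (hc.1.rng.trans (Set.ext fun z => (forall_mem_range (p := fun i => z i ≠ 0)).symm))
    (Q := MvPolynomial.rename finSumFinEquiv Q)
    (by simpa using (MvPolynomial.rename_injective _ finSumFinEquiv.injective).ne h2) _
    fun z hz => ?_) ?_
  · rw [(incl hq).2.1.rng]
    refine ⟨W.mem z, h3 _ (W.mem z) ?_⟩
    rwa [MvPolynomial.eval_rename, ← rn_symm, ContinuousLinearEquiv.symm_apply_apply] at hz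
  · rw [bdV_nat _ he _ rg (smo hi') he' (oe hj') rg' (oe hp) (oe hq) (oe hs)
      (fun x => V.emb.injective (by rw [hp, hi', hi, hq]))
      (fun x => V.emb.injective (by rw [hp, hj', hj, hs])) (fun y ⟨x, e⟩ => ?_) fun y ⟨x, e⟩ => ?_]
    · exact (grd_exV hs).comp (grd_bdV _ he' _ rg' aψ.cont (fun z => W'.emb.injective (by
        rw [hψ, hi', h6 _ (W'.mem z)])) (incl hj').1 (aψ.comp (incl hj').1)) (gr_wt _)
    · rw [(incl hq).2.1.rng]
      exact ⟨W.mem y, hi y ▸ e ▸ hp x ▸ (V'.mem x).2⟩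
    · rw [(incl hs).2.1.rng]
      exact ⟨V0.mem y, hj y ▸ e ▸ hp x ▸ (V'.mem x).2⟩

end Var

end P275QV
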