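import Vale.Agent.P275QV.Aff
import Vale.Agent.P275BW.Map

/-! The projective bundles over the flag bundle are varieties, and carry the line bundles. -/

open Set Topology Function Matrix Sum Filter Module
open P275BC hiding mt V1
open Vale.Agent Vale.Agent.P275BW Vale.Agent.P275CH
open Vale.Agent.P275OM (Mx)
open Vale.Agent.P275ST (zeta dimR)
open Vale.Agent.P275XB (Ok dimZ prim)
open Vale.Agent.P275Z (nr mem_bor ra_lt exists_root)

noncomputable section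

namespace P275QV

/-- characters of the group give line bundles on the quotient -/
theorem loc_fd {ι ν Y E Q : Type} [Fintype ι] [Fintype ν] [DecidableEq ν] [TopologicalSpace E]
    [TopologicalSpace Q] {p : (ι → ℂ) → Y} {W : Submodule ℂ (Mq ν)}
    {A : Mq ν → Mq ν → (ι → ℂ) → ι → ℂ} {m : ℕ} {R : Set (ι → ℂ)} (h : FD p W A m R)
    {ε : E → ι → ℂ} (hε : Continuous ε) (hm : ∀ a, ε a ∈ R) {π : E → Q} (oq : IsOpenQuotientMap π)
    {T : E → E → ℂ → Prop} (fib : ∀ a b, π a = π b → ∃ c, T a b c) {φ : Mq ν → ℂ}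
    (h1 : ∀ H, Gp W H → ContinuousAt φ H ∧ φ H ≠ 0)
    (h2 : ∀ H H', Gp W H → Gp W H' → φ (H * H') = φ H * φ H')
    (e : ∀ y y' c, T y y' c → ∃ H, Gp W H ∧ ε y = A H H⁻¹ (ε y') ∧ c = φ H) : Loc π T := by
  obtain ⟨χ, k1, k2⟩ := h.frm
  refine ⟨oq, fib, fun x => ?_⟩
  obtain ⟨F, b, k3, f, -⟩ := k2 _ (hm x)
  refine ⟨{y | F (ε y) ≠ 0}, fun y => φ (b (ε y)), k3, isOpen_ne_fun ((continuous_iff_continuousAt.2
    fun x => (pl_an f.pl x).continuousAt).comp hε) continuous_const, fun y k =>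
      ((h1 _ (f.mem _ k)).1.comp (f := fun y => b (ε y)) (continuousAt_pi.2 fun a =>
        continuousAt_pi.2 fun a' => (lc_an (f.lb a a') k).continuousAt.comp
          hε.continuousAt)).continuousWithinAt, fun y k => (h1 _ (f.mem _ k)).2, fun y y' c k k' => ?_⟩
  obtain ⟨H, a1, a2, rfl⟩ := e y y' c k
  refine ⟨by rw [mem_ofPred_eq, a2, f.sem H a1]; exact mul_ne_zero (k1 H a1) k', ?_⟩
  rw [a2, f.eqv H a1 _ k', ← h2 _ _ (h.act.gmul _ _ (f.mem _ k') (h.act.ginv H a1)) a1,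
    nonsing_inv_mul_cancel_right _ _ a1.unit]

variable {n g : ℕ}

theorem card_Pos (n : ℕ) : Fintype.card (Pos n) = nr n :=
  (Fintype.card_congr (Equiv.subtypeEquivRight fun _ => ⟨fun h =>
    let ⟨j, a, b⟩ := exists_root h
    ⟨j, Nat.zero_le _, Prod.ext a b⟩, fun ⟨j, _, e⟩ => e ▸ ra_lt j⟩)).trans (card_Pk (Nat.zero_le _))

/-- conjugation -/
def aV (h h' : Mx n) (p : Fin n × Fin n → ℂ) : Fin n × Fin n → ℂ := vc n (h * (vc n).symm p * h')

theorem act_aV (σ : Fin n → Fin n) : Act (Wσ σ) aV where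
  gmul := gmul_Wσ
  ginv := ginv_Wσ
  one x := by simp [aV]
  mul g h _ _ x := by simp [aV, Matrix.mul_inv_rev, Matrix.mul_assoc]
  pol Y S h h' x k k' e i := (k.mul (N := fun y => (vc n).symm (x y)) fun _ _ => e _).mul k' _ _

/-- the weights of the scaling -/
def wV (n g : ℕ) : Ii n g → ℤ := Sum.elim 1 0

theorem sc_eq (t : ℂ) (y : Ii n g → ℂ) : sc (wV n g) t y = pt (t • vm y) (y ∘ inr) :=
  funext fun i => by cases i <;> simp [sc, wV, pt, vm]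

theorem cA_eq (h h' : Mx n) (y : Ii n g → ℂ) :
    cA aV h h' y = pt (h * vm y * h') (cjx h h' (y ∘ inr)) := funext fun i => by cases i <;> rfl

theorem rl_iff {h : Mx n} {t : ℂ} {y y' : Ii n g → ℂ} : Rl h t y y' ↔
    UT h ∧ h.det ≠ 0 ∧ t ≠ 0 ∧ y = sc (wV n g) t (cA aV h h⁻¹ y') := by
  rw [sc_eq, cA_eq, vm_pt, pt_inr]
  refine and_congr_right fun _ => and_congr_right fun _ => and_congr_right fun _ =>
    ⟨fun k => by rw [← k.1, ← k.2, pt_vm], fun k => k ▸ ⟨rfl, rfl⟩⟩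

theorem rl_smul {h : Mx n} {t c : ℂ} {y y' : Ii n g → ℂ} (k : Rl h t y y') (hc : c ≠ 0) :
    Rl (c • h) t y y' := by
  have e : ∀ M : Mx n, c • h * M * (c • h)⁻¹ = h * M * h⁻¹ := fun M => by
    rw [inv_eq_right_inv (B := c⁻¹ • h⁻¹) (by simp [smul_smul, hc, mul_nonsing_inv _ k.2.1.isUnit])]
    simp [smul_smul, hc]
  exact ⟨ut_smul c k.1, det_smul h c ▸ mul_ne_zero (pow_ne_zero _ hc) k.2.1, k.2.2.1,
    (e _).symm ▸ k.2.2.2.1, k.2.2.2.2.trans (funext fun i => by rw [cjx, cjx, e])⟩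

theorem zc_sub {κ : Type} [Fintype κ] (q : Submodule ℂ (κ → ℂ)) : ZC (q : Set (κ → ℂ)) := by
  classical
  refine zc_of (ZC.iInter fun φ : q.dualAnnihilator => ZC.poly (ι := κ) (∑ i, MvPolynomial.X i *
    MvPolynomial.C (φ.1 fun j => if i = j then 1 else 0))) fun x => ?_
  rw [SetLike.mem_coe, ← Subspace.forall_mem_dualAnnihilator_apply_eq_zero_iff q, mem_iInter,
    Subtype.forall]
  exact forall₂_congr fun φ _ => by rw [φ.pi_apply_eq_sum_univ x]; simp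

theorem bvx : BVX := by
  intro r g d o V D hV hD
  obtain ⟨-, σ, h1, h2, h3, h4⟩ := adm_bor (n := r + 1) r.succ_ne_zero
  let S : Set (Fin (r + 1) × Fin (r + 1) → ℂ) := V.map (vc _).toLinearMap \ {0}
  have hS : ∀ p, p ∈ S ↔ (vc _).symm p ∈ V ∧ (vc _).symm p ≠ 0 := fun p =>
    and_congr (Submodule.mem_map_equiv V) (vc _).symm.map_ne_zero_iff.symm
  have z0 : ZC ({0} : Set (Fin (r + 1) × Fin (r + 1) → ℂ)) :=
    zc_of (.iInter fun i => .poly (.X i)) fun x => by simp [funext_iff]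
  have F0 := fam (g := g) h1 (act_aV σ) (S := S) (v := fun _ => zeta (r + 1) d • 1)
    (m := finrank ℂ V + dimZ g (r + 1)) (e := finrank ℂ V) ⟨_, _, zc_sub _, z0, rfl⟩
    (fun p k => (LinearEquiv.finrank_map_eq (vc _) V ▸ par_sub _ k.1).diff z0 k.2)
    (MS.const _ _) (fun h k p l => ⟨(hS _).2 ?_, by simp [mul_nonsing_inv _ k.unit]⟩)
    (fun _ _ => ⟨ut_smul _ uni_one.1, by simpa using gnc_root (prim (d := d) g)⟩)
    (by have := dimZ_add r o.hg; omega)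
  swap
  · rw [aV, LinearEquiv.symm_apply_apply]
    refine ⟨hV h (gp_Wσ.1 k).1 k.2 _ ((hS p).1 l).1, fun e => ((hS p).1 l).2 ?_⟩
    simpa only [Matrix.mul_assoc, nonsing_inv_mul _ k.unit, nonsing_inv_mul_cancel_left _ _ k.unit,
      Matrix.mul_one, Matrix.mul_zero, Matrix.zero_mul] using congrArg (h⁻¹ * · * h) e
  have hR : ∀ y, y ∈ RF g S (fun _ => zeta (r + 1) d • 1) ↔
      vm y ∈ V ∧ vm y ≠ 0 ∧ y ∘ inr ∈ Rz (r + 1) g (zeta (r + 1) d) := fun y =>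
    (and_congr_left' (hS _)).trans and_assoc
  have F := F0.ext (e := wV _ g) (fun t _ h _ x => by
      simp only [sc_eq, cA_eq, vm_pt, pt_inr, Matrix.mul_smul, Matrix.smul_mul])
    (fun t x => by rw [sc_eq, pt_inr]) (fun t l x k => by
      rw [hR] at k ⊢
      rw [sc_eq]
      exact ⟨V.smul_mem t k.1, smul_ne_zero l k.2.1, k.2.2⟩) fun x k => by
      obtain ⟨a, l⟩ := ne_iff.1 ((hR x).1 k).2.1
      obtain ⟨b, l⟩ := ne_iff.1 l
      exact ⟨inl (a, b), rfl, l⟩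
  have key : ∀ {h t} {y y' : Ii (r + 1) g → ℂ}, Rl h t y y' → ∃ c : ℂ, c ≠ 0 ∧
      Gp (W2 (Wσ σ)) (bl (c • h) t) ∧ y = A2 (wV _ g) (cA aV) (bl (c • h) t) (bl (c • h) t)⁻¹ y' :=
    fun {h t y y'} k =>
      let ⟨c, a, b⟩ := h4 h (mem_bor.2 k.1) k.2.1
      ⟨c, a, gp_bl b k.2.2.1, (rl_iff.1 (rl_smul k a)).2.2.2.trans (A2_bl b k.2.2.1 _).symm⟩
  obtain ⟨X⟩ := F.bv (d := D) (π := (mk : EV g d V → _)) .subtypeVal Subtype.val_injective
    (Subtype.range_val.trans (ext fun y => (hR y).symm)) (by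
      have := dimZ_eq (h := o)
      rw [finrank_W2, h2]
      rw [card_Pos] at hD
      omega) mk_quo fun a b => ⟨fun e =>
      let ⟨_, _, k⟩ := mk_eq.1 e.symm
      let ⟨_, _, k1, k2⟩ := key k
      ⟨_, k1, k2⟩, fun e =>
      let ⟨h, t, k1, k2, k3⟩ := ob2.1 e
      (mk_eq.2 ⟨h, t, rl_iff.2 ⟨(gp_Wσ.1 k1).1, k1.2, k2, k3⟩⟩).symm⟩
  have L := fun T => loc_fd (T := T) F continuous_subtype_val (fun a : EV g d V => (hR _).2 a.2)
    ⟨X.quo.surjective, X.quo.continuous, X.qv'.isOpenMap⟩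
  refine ⟨⟨_, ⟨X⟩⟩, L _ (fun a b e => ?_) (φ := fun H => (H (inr ()) (inr ()))⁻¹) (fun H k => ?_)
    (fun H H' k k' => ?_) ?_, fun a b => L _ (fun y y' e => ?_)
      (φ := fun H => H (inl a) (inl a) / H (inl b) (inl b)) (fun H k => ?_) (fun H H' k k' => ?_) ?_⟩
  · obtain ⟨h, t, k⟩ := mk_eq.1 e
    exact ⟨t⁻¹, h, (inv_inv t).symm ▸ k⟩
  · obtain ⟨h, t, -, l, rfl⟩ := gp_W2 k
    exact ⟨(continuous_id.matrix_elem _ _).continuousAt.inv₀ l, inv_ne_zero l⟩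
  · obtain ⟨h, t, -, -, rfl⟩ := gp_W2 k
    obtain ⟨h', t', -, -, rfl⟩ := gp_W2 k'
    rw [bl_mul]
    exact mul_inv t t'
  · rintro y y' c ⟨h, k⟩
    obtain ⟨_, -, k1, k2⟩ := key k
    exact ⟨_, k1, k2, (inv_inv c).symm⟩
  · obtain ⟨h, t, k⟩ := mk_eq.1 e
    exact ⟨_, h, t, k, rfl⟩
  · obtain ⟨h, t, l, -, rfl⟩ := gp_W2 k
    have := UT.diag_ne (gp_Wσ.1 l).1 l.2
    exact ⟨(continuous_id.matrix_elem _ _).continuousAt.div
      (continuous_id.matrix_elem _ _).continuousAt (this b), div_ne_zero (this a) (this b)⟩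
  · obtain ⟨h, t, l, -, rfl⟩ := gp_W2 k
    obtain ⟨h', t', l', -, rfl⟩ := gp_W2 k'
    rw [bl_mul]
    change (h * h') a a / (h * h') b b = h a a / h b b * (h' a a / h' b b)
    simp only [(gp_Wσ.1 l).1.mul_diag (gp_Wσ.1 l').1, div_mul_div_comm]
  · rintro y y' _ ⟨h, t, k, rfl⟩
    obtain ⟨c, l, k1, k2⟩ := key k
    exact ⟨_, k1, k2, (mul_div_mul_left _ _ l).symm⟩

end P275QV
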