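import Mathlib

/-! Complex submanifolds of a vector space: local parametrisations with an analytic retraction,
local equations of full rank, and the passage between the two. -/

namespace P275QV

open Filter Topology Module Function

set_option linter.unusedSectionVars false

variable {E F : Type} [NormedAddCommGroup E] [NormedSpace ℂ E] [FiniteDimensional ℂ E]
  [NormedAddCommGroup F] [NormedSpace ℂ F] [FiniteDimensional ℂ F]

/-- near `x` the set `S` has an analytic parametrisation `φ` with an analytic retraction `ψ` -/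
def Par (d : ℕ) (S : Set E) (x : E) : Prop :=
  ∃ (φ : (Fin d → ℂ) → E) (ψ : E → Fin d → ℂ), AnalyticAt ℂ φ (ψ x) ∧ AnalyticAt ℂ ψ x ∧
    φ (ψ x) = x ∧ (∀ᶠ z in 𝓝 (ψ x), φ z ∈ S ∧ ψ (φ z) = z) ∧ ∀ᶠ y in 𝓝 x, y ∈ S → φ (ψ y) = y

/-- near `x` the set `S` is given by analytic equations of full rank -/
def Eqn (d : ℕ) (S : Set E) (x : E) : Prop :=
  ∃ (c : ℕ) (h : E → Fin c → ℂ), d + c = finrank ℂ E ∧ AnalyticAt ℂ h x ∧
    Surjective (fderiv ℂ h x) ∧ ∀ᶠ y in 𝓝 x, y ∈ S ↔ h y = 0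

variable {d : ℕ} {S : Set E} {x : E}

/-- the analytic inverse function theorem -/
theorem exists_inv {Θ : E → F} (h : AnalyticAt ℂ Θ x) (hi : Injective (fderiv ℂ Θ x))
    (hd : finrank ℂ E = finrank ℂ F) : ∃ G : F → E, AnalyticAt ℂ G (Θ x) ∧
      (∀ᶠ y in 𝓝 x, G (Θ y) = y) ∧ ∀ᶠ z in 𝓝 (Θ x), Θ (G z) = z := by
  have := FiniteDimensional.complete ℂ E
  have := FiniteDimensional.complete ℂ F
  let e : E ≃L[ℂ] F :=
    (LinearMap.linearEquivOfInjective (fderiv ℂ Θ x : E →ₗ[ℂ] F) hi hd).toContinuousLinearEquiv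
  have h1 : ContDiffAt ℂ ⊤ Θ x := h.contDiffAt
  have h2 : HasFDerivAt Θ (e : E →L[ℂ] F) x :=
    h.differentiableAt.hasFDerivAt.congr_fderiv (ContinuousLinearMap.ext fun v => rfl)
  have h3 := h1.mem_toOpenPartialHomeomorph_source h2 (by simp)
  exact ⟨_, (h1.to_localInverse h2 (by simp)).analyticAt,
    (h1.toOpenPartialHomeomorph _ h2 (by simp)).eventually_left_inverse h3,
    (h1.toOpenPartialHomeomorph _ h2 (by simp)).eventually_right_inverse' h3⟩

/-- coordinates on a finite dimensional space -/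
noncomputable def crd (F : Type) [NormedAddCommGroup F] [NormedSpace ℂ F] [FiniteDimensional ℂ F]
    {d : ℕ} (h : finrank ℂ F = d) : F ≃L[ℂ] (Fin d → ℂ) :=
  (LinearEquiv.ofFinrankEq F (Fin d → ℂ) (by simpa using h)).toContinuousLinearEquiv

theorem Par.of_model (hd : finrank ℂ F = d) {φ : F → E} {ψ : E → F} (h1 : AnalyticAt ℂ φ (ψ x))
    (h2 : AnalyticAt ℂ ψ x) (h3 : φ (ψ x) = x) (h4 : ∀ᶠ z in 𝓝 (ψ x), φ z ∈ S ∧ ψ (φ z) = z)
    (h5 : ∀ᶠ y in 𝓝 x, y ∈ S → φ (ψ y) = y) : Par d S x := by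
  refine ⟨fun z => φ ((crd F hd).symm z), fun y => crd F hd (ψ y), ?_,
    ((crd F hd).analyticAt _).comp h2, by simpa using h3, ?_, by simpa using h5⟩
  · exact AnalyticAt.comp (g := φ) (by simpa using h1) ((crd F hd).symm.analyticAt _)
  · have : Tendsto (crd F hd).symm (𝓝 (crd F hd (ψ x))) (𝓝 (ψ x)) := by
      simpa using (crd F hd).symm.continuous.tendsto (crd F hd (ψ x))
    filter_upwards [this.eventually h4] with z hz
    exact ⟨hz.1, by rw [hz.2]; simp⟩

theorem Eqn.of_target {h : E → F} (hd : d + finrank ℂ F = finrank ℂ E) (h1 : AnalyticAt ℂ h x)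
    (h2 : Surjective (fderiv ℂ h x)) (h3 : ∀ᶠ y in 𝓝 x, y ∈ S ↔ h y = 0) : Eqn d S x := by
  refine ⟨_, fun y => crd F rfl (h y), hd, ((crd F rfl).analyticAt _).comp h1, ?_,
    by simpa using h3⟩
  have a : HasFDerivAt (fun y => crd F rfl (h y)) _ x :=
    (crd F rfl).hasFDerivAt.comp x h1.differentiableAt.hasFDerivAt
  rw [a.fderiv]
  exact (crd F rfl).surjective.comp h2

theorem Par.mem (h : Par d S x) : x ∈ S :=
  let ⟨_, _, _, _, h3, h4, _⟩ := h
  h3 ▸ h4.self_of_nhds.1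

theorem Par.congr {S' : Set E} (h : Par d S x) (e : ∀ᶠ y in 𝓝 x, y ∈ S ↔ y ∈ S') :
    Par d S' x := by
  obtain ⟨φ, ψ, h1, h2, h3, h4, h5⟩ := h
  refine ⟨φ, ψ, h1, h2, h3, ?_, ?_⟩
  · filter_upwards [h4, h1.continuousAt.eventually (h3.symm ▸ e)] with z a1 a2
    exact ⟨a2.1 a1.1, a1.2⟩
  · filter_upwards [h5, e] with y a1 a2 a3 using a1 (a2.2 a3)

theorem Eqn.congr {S' : Set E} (h : Eqn d S x) (e : ∀ᶠ y in 𝓝 x, y ∈ S ↔ y ∈ S') :
    Eqn d S' x := by
  obtain ⟨c, h, h1, h2, h3, h4⟩ := h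
  refine ⟨c, h, h1, h2, h3, ?_⟩
  filter_upwards [h4, e] with y a1 a2 using a2.symm.trans a1

/-- transport along a local isomorphism of sets given by analytic maps of the ambient spaces -/
theorem Par.map (h : Par d S x) {S' : Set F} {f : E → F} {g : F → E} (hf : AnalyticAt ℂ f x)
    (hg : AnalyticAt ℂ g (f x)) (h1 : ∀ᶠ y in 𝓝 x, y ∈ S → f y ∈ S' ∧ g (f y) = y)
    (h2 : ∀ᶠ z in 𝓝 (f x), z ∈ S' → g z ∈ S ∧ f (g z) = z) : Par d S' (f x) := by
  have e : g (f x) = x := (h1.self_of_nhds h.mem).2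
  obtain ⟨φ, ψ, a1, a2, a3, a4, a5⟩ := h
  refine ⟨fun z => f (φ z), fun z => ψ (g z), ?_, ?_, by simp only [e, a3], ?_, ?_⟩
  · simp only [e]
    exact AnalyticAt.comp (g := f) (a3.symm ▸ hf) a1
  · exact AnalyticAt.comp (g := ψ) (e.symm ▸ a2) hg
  · simp only [e]
    filter_upwards [a4, a1.continuousAt.eventually (a3.symm ▸ h1)] with z b1 b2
    exact ⟨(b2 b1.1).1, by rw [(b2 b1.1).2, b1.2]⟩
  · filter_upwards [h2, hg.continuousAt.eventually (e.symm ▸ a5)] with z b1 b2 b3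
    rw [b2 (b1 b3).1, (b1 b3).2]

theorem par_of_mem_nhds (h : S ∈ 𝓝 x) : Par (finrank ℂ E) S x :=
  Par.of_model (φ := id) (ψ := id) rfl analyticAt_id analyticAt_id rfl
    (Filter.mem_of_superset h fun _ hy => ⟨hy, rfl⟩) (Eventually.of_forall fun _ _ => rfl)

theorem Eqn.par (h : Eqn d S x) (hx : x ∈ S) : Par d S x := by
  obtain ⟨c, h, h1, h2, h3, h4⟩ := h
  have h0 : h x = 0 := h4.self_of_nhds.1 hx
  set A : E →ₗ[ℂ] Fin c → ℂ := (fderiv ℂ h x : E →ₗ[ℂ] Fin c → ℂ) with hA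
  have hK : finrank ℂ (LinearMap.ker A) = d := by
    have := A.finrank_range_add_finrank_ker
    rw [LinearMap.range_eq_top.2 h3] at this
    simp at this
    omega
  obtain ⟨L, hL⟩ := (LinearMap.ker A).subtype.exists_leftInverse_of_injective
    (Submodule.ker_subtype _)
  let L' : E →L[ℂ] LinearMap.ker A := LinearMap.toContinuousLinearMap L
  have hΘ : AnalyticAt ℂ (fun y => (h y, L' y)) x := h2.prod (L'.analyticAt x)
  obtain ⟨G, g1, g2, g3⟩ := exists_inv hΘ (by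
    rw [(h2.differentiableAt.hasFDerivAt.prodMk L'.hasFDerivAt).fderiv, injective_iff_map_eq_zero]
    intro v hv
    have hv' := Prod.ext_iff.1 hv
    have := LinearMap.congr_fun hL ⟨v, hv'.1⟩
    exact congrArg Subtype.val (this.symm.trans hv'.2)) (by simp; omega)
  have t1 : Tendsto (fun z : LinearMap.ker A => ((0 : Fin c → ℂ), z)) (𝓝 (L' x))
      (𝓝 (h x, L' x)) := by
    rw [h0]
    exact (Continuous.prodMk_right 0).tendsto _
  have e : G (0, L' x) = x := by simpa [h0] using g2.self_of_nhds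
  have a1 : AnalyticAt ℂ (fun z : LinearMap.ker A => G (0, z)) (L' x) :=
    AnalyticAt.comp (g := G) (by simpa [h0] using g1) (analyticAt_const.prod analyticAt_id)
  refine Par.of_model hK (φ := fun z => G (0, z)) (ψ := L') a1 (L'.analyticAt x) e ?_ ?_
  · filter_upwards [t1.eventually g3, a1.continuousAt.eventually (e.symm ▸ h4)] with z b1 b2
    have b3 := Prod.ext_iff.1 b1
    exact ⟨b2.2 b3.1, b3.2⟩
  · filter_upwards [g2, h4] with y b1 b2 b3
    rwa [b2.1 b3] at b1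

theorem Par.eqn (h : Par d S x) : Eqn d S x := by
  obtain ⟨φ, ψ, h1, h2, h3, h4, h5⟩ := h
  set A := fderiv ℂ φ (ψ x) with hA
  set B := fderiv ℂ ψ x with hB
  have dφ : HasFDerivAt φ A (ψ x) := h1.differentiableAt.hasFDerivAt
  have dψ : HasFDerivAt ψ B x := h2.differentiableAt.hasFDerivAt
  have hBA : ∀ w, B (A w) = w := fun w => by
    have a1 : HasFDerivAt (fun z => ψ (φ z)) (B.comp A) (ψ x) :=
      HasFDerivAt.comp (g := ψ) _ (h3.symm ▸ dψ) dφ
    exact DFunLike.congr_fun (a1.unique ((hasFDerivAt_id _).congr_of_eventuallyEq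
      (h4.mono fun z hz => hz.2))) w
  let K : Submodule ℂ E := LinearMap.ker (B : E →ₗ[ℂ] Fin d → ℂ)
  let L : E →L[ℂ] K := (ContinuousLinearMap.id ℂ E - A.comp B).codRestrict K fun v => by
    simp [K, hBA]
  have hL : ∀ v, (L v : E) = v - A (B v) := fun v => rfl
  have hK : d + finrank ℂ K = finrank ℂ E := by
    have := (B : E →ₗ[ℂ] Fin d → ℂ).finrank_range_add_finrank_ker
    rw [LinearMap.range_eq_top.2 fun w => ⟨A w, hBA w⟩] at this
    simpa using this
  have a1 : AnalyticAt ℂ (fun y => L (y - φ (ψ y))) x :=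
    (L.analyticAt _).comp (analyticAt_id.sub (h1.comp h2))
  have a2 : HasFDerivAt (fun y => L (y - φ (ψ y))) L x :=
    (L.hasFDerivAt.comp x ((hasFDerivAt_id x).sub (dφ.comp x dψ))).congr_fderiv
      (ContinuousLinearMap.ext fun v => Subtype.ext (by simp [hL, hBA]))
  obtain ⟨G, -, g2, -⟩ := exists_inv (h2.prod a1) (by
    rw [(dψ.prodMk a2).fderiv, injective_iff_map_eq_zero]
    intro v hv
    have hv' := Prod.ext_iff.1 hv
    have b1 : B v = 0 := hv'.1
    have b2 : v - A (B v) = 0 := congrArg Subtype.val hv'.2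
    simpa [b1] using b2) (by simp; omega)
  refine Eqn.of_target hK a1 (by
    rw [a2.fderiv]
    exact fun v => ⟨v, Subtype.ext (by rw [hL, show B v = 0 from v.2]; simp)⟩) ?_
  filter_upwards [h5, g2, h2.continuousAt.eventually h4,
    (h1.comp h2).continuousAt.eventually (show ∀ᶠ y in 𝓝 ((φ ∘ ψ) x), _ from h3.symm ▸ g2)]
    with y b1 b2 b3 b4
  refine ⟨fun hy => by rw [b1 hy]; simp, fun hy => ?_⟩
  simp only [comp_apply, b3.2, sub_self, map_zero] at b4
  rw [hy] at b2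
  exact b2.symm.trans b4 ▸ b3.1

/-- cancellation of a vector space factor -/
theorem Eqn.of_prod {r : ℕ} {τ : F} (hr : finrank ℂ F = r)
    (h : Eqn (d + r) (S ×ˢ Set.univ) (x, τ)) (hx : x ∈ S) : Eqn d S x := by
  obtain ⟨c, h, h1, h2, h3, h4⟩ := h
  have dh := h2.differentiableAt.hasFDerivAt
  have a0 : ∀ v, fderiv ℂ h (x, τ) (0, v) = 0 := fun v => by
    have a1 := dh.comp τ (hasFDerivAt_prodMk_right x τ)
    refine DFunLike.congr_fun (a1.unique ((hasFDerivAt_const 0 τ).congr_of_eventuallyEq ?_)) v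
    filter_upwards [(Continuous.prodMk_right x).continuousAt.eventually h4] with y hy
    exact hy.1 ⟨hx, trivial⟩
  refine ⟨c, fun y => h (y, τ), by simp at h1; omega,
    AnalyticAt.comp (g := h) h2 (analyticAt_id.prod analyticAt_const), ?_, ?_⟩
  · have a : HasFDerivAt (fun y => h (y, τ)) _ x :=
      HasFDerivAt.comp (g := h) x dh (hasFDerivAt_prodMk_left x τ)
    rw [a.fderiv]
    intro w
    obtain ⟨⟨u, v⟩, rfl⟩ := h3 w
    refine ⟨u, ?_⟩
    rw [show ((u, v) : E × F) = (u, 0) + (0, v) by simp, map_add, a0, add_zero]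
    rfl
  · filter_upwards [(Continuous.prodMk_left τ).continuousAt.eventually h4] with y hy
    simpa using hy

theorem Par.of_prod {r : ℕ} {τ : F} (hr : finrank ℂ F = r)
    (h : Par (d + r) (S ×ˢ Set.univ) (x, τ)) : Par d S x :=
  (h.eqn.of_prod hr h.mem.1).par h.mem.1

/-- further equations which are of full rank along `S` -/
theorem Eqn.inter {r : ℕ} (h : Eqn (d + r) S x) (hr : finrank ℂ F = r) {f : E → F}
    (hf : AnalyticAt ℂ f x)
    (hs : ∀ w, ∃ γ : ℂ → E, γ 0 = x ∧ (∀ᶠ s in 𝓝 0, γ s ∈ S) ∧ DifferentiableAt ℂ γ 0 ∧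
      fderiv ℂ f x (deriv γ 0) = w) : Eqn d (S ∩ {y | f y = 0}) x := by
  obtain ⟨c, h, h1, h2, h3, h4⟩ := h
  have dh := h2.differentiableAt.hasFDerivAt
  refine Eqn.of_target (h := fun y => (h y, f y)) (by simp; omega) (h2.prod hf) ?_ ?_
  · rw [(dh.prodMk hf.differentiableAt.hasFDerivAt).fderiv]
    rintro ⟨u, w⟩
    obtain ⟨v, rfl⟩ := h3 u
    obtain ⟨γ, g1, g2, g3, g4⟩ := hs (w - fderiv ℂ f x v)
    have a1 : fderiv ℂ h x (deriv γ 0) = 0 := by
      refine (HasFDerivAt.comp_hasDerivAt (l := h) 0 (g1.symm ▸ dh) g3.hasDerivAt).unique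
        ((hasDerivAt_const 0 0).congr_of_eventuallyEq ?_)
      filter_upwards [g2, g3.continuousAt.eventually (g1.symm ▸ h4)] with s a b using b.1 a
    exact ⟨v + deriv γ 0, by simp [a1, g4]⟩
  · filter_upwards [h4] with y hy
    simp [hy, Prod.ext_iff]

end P275QV
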