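import Vale.Agent.P275QV.Var
import Vale.Agent.P275RG.Prin

/-! Open subvarieties, retractions onto a dense open part of a cell, tori which avoid a
hypersurface. -/

open scoped Manifold ContDiff Topology
open Set Filter Function Topology MvPolynomial
open Vale.Agent Vale.Agent.P281Z
open Vale.Agent.P272.K (Cm Chart At)
open Vale.Agent.P277Z (at_chart)
open P275BC (ZC Reg Cell Tor)

set_option linter.unusedSectionVars false

noncomputable section

namespace P275QV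

/-- a compact subset of the torus can be moved off a hypersurface -/
theorem amo {N : ℕ} {Q : MvPolynomial (Fin N) ℂ} (hQ : Q ≠ 0) {K : Set (Fin N → ℂ)}
    (hK : IsCompact K) (h0 : ∀ z ∈ K, ∀ i, z i ≠ 0) :
    ∃ l : Fin N → ℂ, (∀ i, l i ≠ 0) ∧ ∀ z ∈ K, eval (l * z) Q ≠ 0 := by
  induction N with
  | zero =>
    refine ⟨1, fun i => i.elim0, fun z _ h => hQ ?_⟩
    rw [Q.eq_C_of_isEmpty] at h ⊢
    rw [eval_C] at h
    rw [h, C_0]
  | succ N ih =>
    let p := finSuccEquiv ℂ N Q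
    obtain ⟨l, h1, h2⟩ := ih (Q := p.leadingCoeff) (by simpa [p] using hQ)
      (hK.image (f := Fin.tail) (continuous_pi fun i => continuous_apply _)) (by
        rintro _ ⟨z, hz, rfl⟩ i
        exact h0 z hz _)
    let G : ℂ × (Fin (N + 1) → ℂ) → ℂ := fun y => ∑ j ∈ Finset.range (p.natDegree + 1),
      eval (l * Fin.tail y.2) (p.coeff j) * y.2 0 ^ j * y.1 ^ (p.natDegree - j)
    have hG : Continuous G := continuous_finsetSum _ fun j _ =>
      (((p.coeff j).continuous_eval.comp (continuous_const.mul (continuous_pi fun i =>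
        (continuous_apply _).comp continuous_snd))).mul
        (((continuous_apply 0).comp continuous_snd).pow _)).mul (continuous_fst.pow _)
    obtain ⟨ε, e1, e2⟩ := ((hK.eventually_forall_of_forall_eventually (x₀ := (0 : ℂ))
      (P := fun ε z => G (ε, z) ≠ 0) fun z hz => hG.continuousAt.eventually_ne (by
        simp only [G]
        rw [Finset.sum_range_succ, Finset.sum_eq_zero fun j hj => by
          rw [zero_pow (Nat.sub_ne_zero_of_lt (Finset.mem_range.1 hj)), mul_zero]]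
        simpa using ⟨h2 _ ⟨z, hz, rfl⟩, fun h => absurd h (h0 z hz 0)⟩)).filter_mono
      (nhdsWithin_le_nhds (s := {0}ᶜ))).and self_mem_nhdsWithin |>.exists
    refine ⟨Fin.cons ε⁻¹ l, Fin.cases (inv_ne_zero e2) h1, fun z hz h => e1 z hz ?_⟩
    rw [show Fin.cons ε⁻¹ l * z = Fin.cons (ε⁻¹ * z 0) (l * Fin.tail z) from
      funext (Fin.cases rfl fun _ => rfl), eval_eq_eval_mv_eval', Polynomial.eval_map,
      Polynomial.eval₂_eq_sum_range] at h
    rw [← mul_zero (ε ^ p.natDegree), ← h, Finset.mul_sum]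
    refine Finset.sum_congr rfl fun j hj => ?_
    have : ε ≠ 0 := e2
    rw [pow_sub₀ _ this (Nat.lt_succ_iff.1 (Finset.mem_range.1 hj)), mul_pow, inv_pow]
    ring

variable {κ : Type} [Fintype κ] {d : ℕ} {M S : Set (κ → ℂ)}

/-- a regular retraction of a Zariski open part of `M` onto a dense open part of the cell `S` -/
theorem ret {α β : Type} [Fintype α] [Fintype β] (hS : S ⊆ M) (c : Cell S α β) :
    ∃ (C : Set (κ → ℂ)) (Ψ : (κ → ℂ) → κ → ℂ) (Q : MvPolynomial (α ⊕ β) ℂ), ZC C ∧ Q ≠ 0 ∧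
      (∀ x ∈ S, eval (c.ψ x) Q ≠ 0 → x ∉ C) ∧ (∀ i, Reg (M \ C) fun x => Ψ x i) ∧
      (∀ x ∈ M \ C, Ψ x ∈ S \ C) ∧ ∀ x ∈ S \ C, Ψ x = x := by
  have h1 : (1 : α ⊕ β → ℂ) ∈ Tor α β := fun _ => one_ne_zero
  choose P Q a1 a2 using fun k => c.rψ k _ (c.mφ 1 h1)
  let D := (∏ k, Q k) * ∏ i, P (.inl i)
  have d1 : ∀ x, eval x D ≠ 0 ↔ (∀ k, eval x (Q k) ≠ 0) ∧ ∀ i, eval x (P (.inl i)) ≠ 0 := fun x => by
    simp only [D, map_mul, map_prod, mul_ne_zero_iff, Finset.prod_ne_zero_iff, Finset.mem_univ,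
      forall_const]
  let F : (κ → ℂ) → α ⊕ β → ℂ := fun x k => eval x (P k) / eval x (Q k)
  have m1 : ∀ x ∈ {x ∈ M | eval x D ≠ 0}, F x ∈ Tor α β := fun x hx i =>
    div_ne_zero (((d1 x).1 hx.2).2 i) (((d1 x).1 hx.2).1 _)
  have r1 : ∀ i, Reg {x ∈ M | eval x D ≠ 0} fun x => c.φ (F x) i := fun i => (c.rφ i).comp
    (fun k => (Reg.poly _).div (Reg.poly _) fun x hx => ((d1 x).1 hx.2).1 k) m1
  have e1 : ∀ x ∈ S, eval x D ≠ 0 → c.φ (F x) = x := fun x hx h => by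
    rw [show F x = c.ψ x from funext fun k => (a2 k x hx (((d1 x).1 h).1 k)).symm, c.li x hx]
  obtain ⟨C, c1, c2⟩ := (Reg.eval_comp r1 D).zc
  have e2 : ∀ x ∈ S, eval x D ≠ 0 → x ∉ {x | eval x D = 0} ∪ C := fun x hx h k =>
    k.elim h fun k => h (e1 x hx h ▸ (c2 x ⟨hS hx, h⟩).1 k)
  obtain ⟨P', Q', b1, b2⟩ := Reg.eval_comp c.rφ D 1 h1
  have b3 : eval 1 P' ≠ 0 := fun h => (d1 _).2 ⟨a1, fun i k => by
    have := a2 (.inl i) _ (c.mφ 1 h1) (a1 _)
    simp only [k, c.ri 1 h1, zero_div] at this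
    exact one_ne_zero this⟩ ((b2 1 h1 b1).trans (by rw [h, zero_div]))
  refine ⟨{x | eval x D = 0} ∪ C, fun x => c.φ (F x), P' * Q', (ZC.poly D).union c1,
    fun h => mul_ne_zero b3 b1 (by rw [← map_mul, h, map_zero]), fun x hx h => e2 x hx ?_,
    fun i => (r1 i).mono fun x hx => ⟨hx.1, fun k => hx.2 (Or.inl k)⟩, fun x hx => ?_,
    fun x hx => e1 x hx.1 fun k => hx.2 (Or.inl k)⟩
  · rw [map_mul, mul_ne_zero_iff] at h
    rw [← c.li x hx]
    exact (b2 _ (c.mψ x hx) h.2).trans_ne (div_ne_zero h.1 h.2)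
  · have k : x ∈ {x ∈ M | eval x D ≠ 0} := ⟨hx.1, fun k => hx.2 (Or.inl k)⟩
    exact ⟨c.mφ _ (m1 x k), e2 _ (c.mφ _ (m1 x k)) fun h => hx.2 (Or.inr ((c2 x k).2 h))⟩

/-- Zariski open subsets of a variety -/
theorem Var.opn (V : Var d S) {C : Set (κ → ℂ)} (hC : ZC C) : Nonempty (Var d (S \ C)) := by
  let O : TopologicalSpace.Opens V.X := ⟨(V.ι ⁻¹' C)ᶜ, (V.zc hC).closed.isOpen_compl⟩
  have h := P275RG.opens_emb (n := d) O
  obtain ⟨c, F, h1, h2, -⟩ := V.c.sub (.univ _) (V.zc hC)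
    ⟨h.hol, h.inj, h.imm, h.rng.trans (compl_eq_univ_sdiff _)⟩ .subtypeVal
  let e := Fintype.equivFin κ
  refine ⟨⟨O, fun x => V.ι x.1, c, h2 V.prj, fun i => (V.reg i).ext h1, V.emb.comp .subtypeVal,
    ext fun y => ⟨fun ⟨x, k⟩ => k ▸ ⟨V.mem _, x.2⟩, fun k => ?_⟩, fun x k hk => ?_⟩⟩
  · obtain ⟨x, rfl⟩ := V.ex k.1
    exact ⟨⟨x, k.2⟩, rfl⟩
  · simpa using inj_comp (rn e).symm (f := fun z => rn e (V.ι (k.symm z).1)) (Imm.comp
      ((V.embE e).hol.at _) (h.hol.at x) ((V.embE e).imm _) (h.imm x) k _ hk (at_chart _))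

end P275QV
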